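import Vale.Agent.P054.Y.PL.Geo
import Vale.Agent.P054.R.Defs
import Vale.Agent.P054.J.Cayley
import Vale.Agent.P054.J.Generic

/-! Transfer of Theorem PL and PL-BIP to isometries: the charts. -/

set_option linter.all false

namespace Vale.Agent.P054.PL

open MvPolynomial Matrix
open Vale.Agent.P054.R (Iso Orth act OnP OnL prt refl LinP DiffL)

/-! ### Cayley coordinates of an isometry -/

/-- Cayley coordinates -/
noncomputable def cay (g : Iso) : V3 × V3 := (J.cyOm g, J.cyW g)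

theorem mt_cay_act {g : Iso} (hQ : Orth g) (hd : (1 + g.1).det ≠ 0) (a : V3) :
    Mt (cay g) (a, act g a) := by
  unfold Mt
  have h := J.cy_flat hQ hd (a := a) (c := act g a) rfl
  funext k
  rw [Pi.sub_apply, h k, cr]
  fin_cases k <;> rfl

theorem mt_cay {g : Iso} (hQ : Orth g) (hd : (1 + g.1).det ≠ 0) (a c : V3) :
    Mt (cay g) (a, c) ↔ act g a = c := by
  constructor
  · intro h
    have h1 := (mt_cay_act hQ hd a).snd_eq h rfl
    exact congrArg Prod.snd h1
  · intro h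
    rw [← h]
    exact mt_cay_act hQ hd a

/-! ### the improper isometry of `TR` -/

/-- the matrix `2 r (c - n nᵀ + δ [n]) - 1` -/
def HMr (n : V3) (δ r : ℝ) : Matrix (Fin 3) (Fin 3) ℝ :=
  !![2 * r * (n 1 * n 1 + n 2 * n 2) - 1, 2 * r * (- n 0 * n 1 - δ * n 2),
      2 * r * (- n 0 * n 2 + δ * n 1);
     2 * r * (- n 1 * n 0 + δ * n 2), 2 * r * (n 0 * n 0 + n 2 * n 2) - 1,
      2 * r * (- n 1 * n 2 - δ * n 0);
     2 * r * (- n 2 * n 0 - δ * n 1), 2 * r * (- n 2 * n 1 + δ * n 0),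
      2 * r * (n 0 * n 0 + n 1 * n 1) - 1]

theorem HM_e {n : V3} (hn : n ≠ 0) (δ : ℝ) :
    ∃ r : ℝ, r * (n 0 * n 0 + n 1 * n 1 + n 2 * n 2 + δ * δ) = 1 := by
  refine ⟨(n 0 * n 0 + n 1 * n 1 + n 2 * n 2 + δ * δ)⁻¹, inv_mul_cancel₀ ?_⟩
  intro h
  apply hn
  apply v3_self
  rw [dp]
  nlinarith [mul_self_nonneg (n 0), mul_self_nonneg (n 1), mul_self_nonneg (n 2),
    mul_self_nonneg δ]

theorem HM_orth {n : V3} {δ r : ℝ}
    (hr : r * (n 0 * n 0 + n 1 * n 1 + n 2 * n 2 + δ * δ) = 1) :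
    (HMr n δ r)ᵀ * HMr n δ r = 1 := by
  ext i j
  fin_cases i <;> fin_cases j <;> simp [HMr, Matrix.mul_apply, Fin.sum_univ_three]
  · linear_combination (4 * r * (n 1 * n 1 + n 2 * n 2)) * hr
  · linear_combination (4 * r * (- n 0 * n 1)) * hr
  · linear_combination (4 * r * (- n 0 * n 2)) * hr
  · linear_combination (4 * r * (- n 1 * n 0)) * hr
  · linear_combination (4 * r * (n 0 * n 0 + n 2 * n 2)) * hr
  · linear_combination (4 * r * (- n 1 * n 2)) * hr
  · linear_combination (4 * r * (- n 2 * n 0)) * hr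
  · linear_combination (4 * r * (- n 2 * n 1)) * hr
  · linear_combination (4 * r * (n 0 * n 0 + n 1 * n 1)) * hr

theorem HM_det {n : V3} {δ r : ℝ}
    (hr : r * (n 0 * n 0 + n 1 * n 1 + n 2 * n 2 + δ * δ) = 1) : (HMr n δ r).det = -1 := by
  rw [Matrix.det_fin_three]
  simp [HMr]
  linear_combination (-4 * r * (n 0 * n 0 + n 1 * n 1 + n 2 * n 2)) * hr

theorem HM_TR {n : V3} {δ r : ℝ}
    (hr : r * (n 0 * n 0 + n 1 * n 1 + n 2 * n 2 + δ * δ) = 1) {u v : V3}
    (h1 : n ⬝ᵥ (u + v) = 0)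
    (h2 : crossProduct n (v - u) = (-δ) • (u + v)) : v = (HMr n δ r).mulVec u := by
  rw [dp] at h1
  rw [cr] at h2
  have e0 := congrFun h2 0
  have e1 := congrFun h2 1
  have e2 := congrFun h2 2
  simp at e0 e1 e2 h1
  apply v3_ext
  · simp [HMr, Matrix.mulVec, dotProduct, Fin.sum_univ_three]
    linear_combination (-(u 0 + v 0)) * hr -
      r * ((n 1) * e2 - (n 2) * e1 - δ * e0 - (n 0) * h1)
  · simp [HMr, Matrix.mulVec, dotProduct, Fin.sum_univ_three]
    linear_combination (-(u 1 + v 1)) * hr -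
      r * ((n 2) * e0 - (n 0) * e2 - δ * e1 - (n 1) * h1)
  · simp [HMr, Matrix.mulVec, dotProduct, Fin.sum_univ_three]
    linear_combination (-(u 2 + v 2)) * hr -
      r * ((n 0) * e1 - (n 1) * e0 - δ * e2 - (n 2) * h1)

/-! ### uniqueness -/

theorem orth_mul_t {A : Matrix (Fin 3) (Fin 3) ℝ} (h : Aᵀ * A = 1) : A * Aᵀ = 1 :=
  mul_eq_one_comm.1 h

theorem orth_dot {A : Matrix (Fin 3) (Fin 3) ℝ} (h : Aᵀ * A = 1) (x y : V3) :
    A.mulVec x ⬝ᵥ A.mulVec y = x ⬝ᵥ y := by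
  rw [Matrix.dotProduct_mulVec, ← Matrix.mulVec_transpose, Matrix.mulVec_mulVec, h,
    Matrix.one_mulVec]

theorem cross_cross_eq (w a b : V3) :
    crossProduct w (crossProduct a b) = (w ⬝ᵥ b) • a - (w ⬝ᵥ a) • b := by
  rw [cr, cr, dp, dp]
  apply v3_ext <;> simp <;> ring

/-- an orthogonal matrix of determinant one which fixes two independent vectors is the identity -/
theorem orth_fix {A : Matrix (Fin 3) (Fin 3) ℝ} (h : Aᵀ * A = 1) (hd : A.det = 1) {a b : V3}
    (hab : crossProduct a b ≠ 0) (ha : A.mulVec a = a) (hb : A.mulVec b = b) : A = 1 := by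
  set w := crossProduct a b with hw
  have hwa : w ⬝ᵥ a = 0 := by rw [hw, cr, dp]; simp; ring
  have hwb : w ⬝ᵥ b = 0 := by rw [hw, cr, dp]; simp; ring
  have h1 : crossProduct (A.mulVec w) w = 0 := by
    have e1 : A.mulVec w ⬝ᵥ b = 0 := by rw [← hb, orth_dot h, hwb]
    have e2 : A.mulVec w ⬝ᵥ a = 0 := by rw [← ha, orth_dot h, hwa]
    conv_lhs => rw [hw]
    rw [← hw, hw, cross_cross_eq, ← hw, e1, e2]
    simp
  obtain ⟨l, hl⟩ : ∃ l : ℝ, A.mulVec w = l • w := ⟨_, par_of_cross h1 hab⟩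
  set N : Matrix (Fin 3) (Fin 3) ℝ := Matrix.of ![a, b, w] with hN
  have hNd : N.det = w ⬝ᵥ w := by
    rw [Matrix.det_fin_three, hN, dp, hw, cr]
    simp
    ring
  have hNd0 : N.det ≠ 0 := by
    rw [hNd]
    intro hc
    exact hab (v3_self hc)
  have hNA : N * Aᵀ = Matrix.of ![a, b, l • w] := by
    ext i j
    have e : (N * Aᵀ) i j = A.mulVec (N i) j := by
      simp [Matrix.mul_apply, Matrix.mulVec, dotProduct, mul_comm]
    rw [e]
    fin_cases i
    · exact congrFun ha j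
    · exact congrFun hb j
    · exact congrFun hl j
  have hdet : (Matrix.of ![a, b, l • w] : Matrix (Fin 3) (Fin 3) ℝ).det = l * N.det := by
    rw [Matrix.det_fin_three, Matrix.det_fin_three, hN]
    simp
    ring
  have hl1 : l = 1 := by
    have e := congrArg Matrix.det hNA
    rw [Matrix.det_mul, Matrix.det_transpose, hd, mul_one, hdet] at e
    have e2 : (l - 1) * N.det = 0 := by linarith
    rcases mul_eq_zero.1 e2 with e3 | e3
    · linarith
    · exact absurd e3 hNd0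
  rw [hl1, one_smul, ← hN] at hNA
  have hu : IsUnit N.det := isUnit_iff_ne_zero.2 hNd0
  have hAt : Aᵀ = 1 := by
    calc Aᵀ = N⁻¹ * (N * Aᵀ) := by rw [← Matrix.mul_assoc, Matrix.nonsing_inv_mul _ hu, one_mul]
      _ = 1 := by rw [hNA, Matrix.nonsing_inv_mul _ hu]
  rw [← Matrix.transpose_transpose A, hAt, Matrix.transpose_one]

theorem iso_unique {g h : Iso} (hg : Orth g) (hh : Orth h) (hd : g.1.det * h.1.det = 1)
    {a b c : V3} (habc : crossProduct (b - a) (c - a) ≠ 0) (ha : act g a = act h a)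
    (hb : act g b = act h b) (hc : act g c = act h c) : g = h := by
  unfold act at ha hb hc
  unfold Orth at hg hh
  have e1 : g.1.mulVec (b - a) = h.1.mulVec (b - a) := by
    rw [Matrix.mulVec_sub, Matrix.mulVec_sub]
    have : g.1.mulVec b - g.1.mulVec a = (g.1.mulVec b + g.2) - (g.1.mulVec a + g.2) := by abel
    rw [this, ha, hb]
    abel
  have e2 : g.1.mulVec (c - a) = h.1.mulVec (c - a) := by
    rw [Matrix.mulVec_sub, Matrix.mulVec_sub]
    have : g.1.mulVec c - g.1.mulVec a = (g.1.mulVec c + g.2) - (g.1.mulVec a + g.2) := by abel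
    rw [this, ha, hc]
    abel
  have hA : (h.1ᵀ * g.1)ᵀ * (h.1ᵀ * g.1) = 1 := by
    rw [Matrix.transpose_mul, Matrix.transpose_transpose, Matrix.mul_assoc,
      ← Matrix.mul_assoc h.1, orth_mul_t hh, one_mul, hg]
  have hAd : (h.1ᵀ * g.1).det = 1 := by
    rw [Matrix.det_mul, Matrix.det_transpose, mul_comm, hd]
  have h3 : h.1ᵀ * g.1 = 1 := by
    refine orth_fix hA hAd habc ?_ ?_
    · rw [← Matrix.mulVec_mulVec, e1, Matrix.mulVec_mulVec, hh, Matrix.one_mulVec]
    · rw [← Matrix.mulVec_mulVec, e2, Matrix.mulVec_mulVec, hh, Matrix.one_mulVec]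
  have h4 : g.1 = h.1 := by
    calc g.1 = (h.1 * h.1ᵀ) * g.1 := by rw [orth_mul_t hh, one_mul]
      _ = h.1 := by rw [Matrix.mul_assoc, h3, mul_one]
  refine Prod.ext h4 ?_
  rw [h4] at ha
  exact add_left_cancel ha

/-! ### the partner -/

theorem nn_ne {n : V3} (hn : n ≠ 0) :
    ∃ r : ℝ, 2 / (n ⬝ᵥ n) = 2 * r ∧ r * (n 0 * n 0 + n 1 * n 1 + n 2 * n 2) = 1 := by
  have h : n ⬝ᵥ n ≠ 0 := fun h => hn (v3_self h)
  refine ⟨(n ⬝ᵥ n)⁻¹, div_eq_mul_inv _ _, ?_⟩
  rw [← dp]
  exact inv_mul_cancel₀ h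

/-- the Householder matrix -/
noncomputable def HH (n : V3) : Matrix (Fin 3) (Fin 3) ℝ :=
  1 - (2 / (n ⬝ᵥ n)) • Matrix.vecMulVec n n

theorem HH_orth {n : V3} (hn : n ≠ 0) : (HH n)ᵀ * HH n = 1 := by
  obtain ⟨r, e1, hr⟩ := nn_ne hn
  unfold HH
  rw [e1]
  ext i j
  fin_cases i <;> fin_cases j <;>
    simp [Matrix.mul_apply, Fin.sum_univ_three, Matrix.vecMulVec_apply, Matrix.one_apply]
  · linear_combination (4 * r * n 0 * n 0) * hr
  · linear_combination (4 * r * n 0 * n 1) * hr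
  · linear_combination (4 * r * n 0 * n 2) * hr
  · linear_combination (4 * r * n 1 * n 0) * hr
  · linear_combination (4 * r * n 1 * n 1) * hr
  · linear_combination (4 * r * n 1 * n 2) * hr
  · linear_combination (4 * r * n 2 * n 0) * hr
  · linear_combination (4 * r * n 2 * n 1) * hr
  · linear_combination (4 * r * n 2 * n 2) * hr

theorem HH_det {n : V3} (hn : n ≠ 0) : (HH n).det = -1 := by
  obtain ⟨r, e1, hr⟩ := nn_ne hn
  unfold HH
  rw [e1, Matrix.det_fin_three]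
  simp [Matrix.vecMulVec_apply, Matrix.one_apply]
  linear_combination (-2) * hr

theorem orth_prt' {g : Iso} (hg : Orth g) {n : V3} (hn : n ≠ 0) (d : ℝ) : Orth (prt g n d) := by
  unfold Orth at hg ⊢
  change (g.1 * HH n)ᵀ * (g.1 * HH n) = 1
  rw [Matrix.transpose_mul, Matrix.mul_assoc, ← Matrix.mul_assoc g.1ᵀ, hg, one_mul, HH_orth hn]

theorem det_prt' (g : Iso) {n : V3} (hn : n ≠ 0) (d : ℝ) : (prt g n d).1.det = - g.1.det := by
  change (g.1 * HH n).det = _
  rw [Matrix.det_mul, HH_det hn]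
  ring

theorem act_prt' (g : Iso) {n : V3} (hn : n ≠ 0) {d : ℝ} {a : V3} (ha : OnP n d a) :
    act (prt g n d) a = act g a := by
  obtain ⟨r, e1, hr⟩ := nn_ne hn
  unfold OnP at ha
  unfold act
  change (g.1 * HH n).mulVec a + (g.1.mulVec ((2 * d / (n ⬝ᵥ n)) • n) + g.2) = _
  rw [← Matrix.mulVec_mulVec, ← add_assoc, ← Matrix.mulVec_add]
  congr 2
  unfold HH
  rw [mul_div_right_comm, e1]
  rw [dp] at ha
  apply v3_ext
  · simp [Matrix.mulVec, dotProduct, Fin.sum_univ_three, Matrix.vecMulVec_apply, Matrix.one_apply]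
    linear_combination (-2 * r * n 0) * ha
  · simp [Matrix.mulVec, dotProduct, Fin.sum_univ_three, Matrix.vecMulVec_apply, Matrix.one_apply]
    linear_combination (-2 * r * n 1) * ha
  · simp [Matrix.mulVec, dotProduct, Fin.sum_univ_three, Matrix.vecMulVec_apply, Matrix.one_apply]
    linear_combination (-2 * r * n 2) * ha

/-- an improper (relative to `g`) isometry which agrees with `g` at three noncollinear points of
the plane is the partner -/
theorem prt_eq_of_three {g h : Iso} (hg : Orth g) (hh : Orth h) {n : V3} (hn : n ≠ 0) {d : ℝ}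
    (hd : g.1.det * h.1.det = -1) {a b c : V3} (habc : crossProduct (b - a) (c - a) ≠ 0)
    (pa : OnP n d a) (pb : OnP n d b) (pc : OnP n d c) (ha : act g a = act h a)
    (hb : act g b = act h b) (hc : act g c = act h c) : prt g n d = h := by
  refine iso_unique (orth_prt' hg hn d) hh ?_ habc ?_ ?_ ?_
  · rw [det_prt' g hn]; linarith
  · rw [act_prt' g hn pa, ha]
  · rw [act_prt' g hn pb, hb]
  · rw [act_prt' g hn pc, hc]

end Vale.Agent.P054.PL
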