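import Vale.Agent.P054.Y.PL.Defs
import Vale.Agent.P054.W.Flat
import Vale.Agent.P054.W.Partition

/-! Theorem PL (planar type): `CoreStmt` from `WallStmt` (polynomial partitioning of `ℝ⁶`). -/

namespace Vale.Agent.P054.PL

open MvPolynomial Finset

/-! ### iterated derivatives -/

open scoped Classical in
/-- iterated derivatives of order at most `k` -/
noncomputable def ders {d : ℕ} : ℕ → MvPolynomial (Fin d) ℝ → Finset (MvPolynomial (Fin d) ℝ)
  | 0, f => {f}
  | k + 1, f => insert f (univ.biUnion fun i => ders k (pderiv i f))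

theorem card_ders_le {d : ℕ} (k : ℕ) (f : MvPolynomial (Fin d) ℝ) :
    #(ders k f) ≤ (d + 1) ^ k := by
  classical
  induction k generalizing f with
  | zero => simp [ders]
  | succ k ih =>
    rw [ders]
    refine (card_insert_le _ _).trans ?_
    have h1 : #(univ.biUnion fun i => ders k (pderiv i f)) ≤ d * (d + 1) ^ k := by
      refine card_biUnion_le.trans ((sum_le_sum fun i _ => ih _).trans ?_)
      simp
    have h2 : 1 ≤ (d + 1) ^ k := Nat.one_le_pow _ _ (by omega)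
    calc #(univ.biUnion fun i => ders k (pderiv i f)) + 1 ≤ d * (d + 1) ^ k + (d + 1) ^ k :=
          Nat.add_le_add h1 h2
      _ = (d + 1) ^ (k + 1) := by ring

theorem totalDegree_of_mem_ders {d : ℕ} (k D : ℕ) (f : MvPolynomial (Fin d) ℝ)
    (hf : f.totalDegree ≤ D) : ∀ h ∈ ders k f, h.totalDegree ≤ D := by
  classical
  induction k generalizing f with
  | zero =>
    intro h hh
    rw [ders, mem_singleton] at hh
    rwa [hh]
  | succ k ih =>
    intro h hh
    rw [ders, mem_insert, mem_biUnion] at hh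
    rcases hh with hh | ⟨i, _, hh⟩
    · rwa [hh]
    · exact ih _ ((W.totalDegree_pderiv_le i f).trans hf) h hh

theorem totalDegree_pderiv_lt {d : ℕ} (i : Fin d) (f : MvPolynomial (Fin d) ℝ) (D : ℕ)
    (hf : f.totalDegree ≤ D + 1) : (pderiv i f).totalDegree ≤ D := by
  rw [totalDegree]
  refine Finset.sup_le fun m hm => ?_
  have h := le_totalDegree (W.mem_support_pderiv hm)
  rw [Finsupp.sum_add_index' (fun _ => rfl) (fun _ _ _ => rfl), Finsupp.sum_single_index rfl] at h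
  exact Nat.le_of_succ_le_succ (h.trans hf)

theorem eq_C_of_pderiv {d : ℕ} (f : MvPolynomial (Fin d) ℝ) (h : ∀ i, pderiv i f = 0) :
    f = C (coeff 0 f) := by
  classical
  ext m
  rw [coeff_C]
  by_cases hm : m = 0
  · subst hm; simp
  · rw [if_neg (Ne.symm hm)]
    obtain ⟨i, hi⟩ : ∃ i, m i ≠ 0 := by
      by_contra hcon
      push Not at hcon
      exact hm (Finsupp.ext hcon)
    have hle : Finsupp.single i 1 ≤ m := Finsupp.single_le_iff.mpr (Nat.one_le_iff_ne_zero.mpr hi)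
    obtain ⟨m', rfl⟩ : ∃ m', m = m' + Finsupp.single i 1 :=
      ⟨m - Finsupp.single i 1, (tsub_add_cancel_of_le hle).symm⟩
    have h1 := coeff_pderiv (i := i) f m'
    rw [h i, coeff_zero] at h1
    have h2 : ((m' i : ℝ) + 1) ≠ 0 := by positivity
    rcases mul_eq_zero.mp h1.symm with h3 | h3
    · exact h3
    · exact absurd h3 h2

theorem exists_mem_ders {d : ℕ} (x : Fin d → ℝ) (D : ℕ) (f : MvPolynomial (Fin d) ℝ)
    (hf0 : f ≠ 0) (hf : f.totalDegree ≤ D) (hx : eval x f = 0) :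
    ∃ h ∈ ders D f, eval x h = 0 ∧ ∃ i, eval x (pderiv i h) ≠ 0 := by
  classical
  induction D generalizing f with
  | zero =>
    exfalso
    have h1 := totalDegree_eq_zero_iff_eq_C.mp (Nat.le_zero.mp hf)
    rw [h1, eval_C] at hx
    rw [hx, C_0] at h1
    exact hf0 h1
  | succ D ih =>
    by_cases hi : ∃ i, eval x (pderiv i f) ≠ 0
    · exact ⟨f, by rw [ders]; exact mem_insert_self _ _, hx, hi⟩
    · push Not at hi
      obtain ⟨i, hi0⟩ : ∃ i, pderiv i f ≠ 0 := by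
        by_contra hcon
        push Not at hcon
        have h1 := eq_C_of_pderiv f hcon
        rw [h1, eval_C] at hx
        rw [hx, C_0] at h1
        exact hf0 h1
      obtain ⟨h, hh, h1, h2⟩ := ih (pderiv i f) hi0 (totalDegree_pderiv_lt i f D hf) (hi i)
      exact ⟨h, by
        rw [ders]
        exact mem_insert_of_mem (mem_biUnion.mpr ⟨i, mem_univ i, hh⟩), h1, h2⟩

/-! ### cells -/

/-- sign cell membership -/
def InCell {ι : Type} (f : ι → MvPolynomial (Fin 6) ℝ) (σ : ι → Bool) (x : Fin 6 → ℝ) : Prop :=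
  ∀ j, eval x (f j) ≠ 0 ∧ (σ j = true ↔ 0 < eval x (f j))

open scoped Classical in
theorem cell_partition6 (m : ℕ) (G : Finset (V3 × V3)) :
    ∃ f : Fin (6 * m) → MvPolynomial (Fin 6) ℝ,
      (∀ j, f j ≠ 0) ∧ ∑ j, (f j).totalDegree ≤ 72 * 2 ^ m ∧
      ∀ σ : Fin (6 * m) → Bool,
        2 ^ (6 * m) * #(G.filter fun p => InCell f σ (pv p)) ≤ #G := by
  obtain ⟨f, hf0, hdeg, hf⟩ := W.poly_partition_dim (f := 6) (by norm_num) pv G m
  refine ⟨fun j => f j, fun j => hf0 j, ?_, ?_⟩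
  · rw [← Fin.sum_univ_eq_sum_range (fun j => (f j).totalDegree)] at hdeg
    exact hdeg
  · intro σ
    have h := hf (fun j => if h : j < 6 * m then σ ⟨j, h⟩ else true)
    refine le_trans (Nat.mul_le_mul_left _ (card_le_card ?_)) h
    intro i hi
    rw [mem_filter] at hi ⊢
    refine ⟨hi.1, fun j hj => ?_⟩
    have h2 := hi.2 ⟨j, hj⟩
    simp only [hj, dif_pos]
    unfold Vale.Agent.P041.SE.Sg
    by_cases h3 : σ ⟨j, hj⟩ = true
    · rw [if_pos h3]
      exact h2.2.1 h3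
    · rw [if_neg h3]
      have h4 : ¬ 0 < eval (pv i) (f j) := fun h5 => h3 (h2.2.2 h5)
      exact lt_of_le_of_ne (not_lt.1 h4) h2.1

theorem degree_aux (a b c : ℝ) (i j : Fin 3) :
    (C a - (X i * C b - X j * C c) : MvPolynomial (Fin 3) ℝ).totalDegree ≤ 1 := by
  have h1 : ∀ (i : Fin 3) (b : ℝ), (X i * C b : MvPolynomial (Fin 3) ℝ).totalDegree ≤ 1 := by
    intro i b
    refine (totalDegree_mul _ _).trans ?_
    rw [totalDegree_X, totalDegree_C]
  refine (totalDegree_sub _ _).trans (max_le ?_ ?_)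
  · rw [totalDegree_C]; exact Nat.zero_le _
  · exact (totalDegree_sub _ _).trans (max_le (h1 i b) (h1 j c))

theorem degree_Lq (q : V3 × V3) (i : Fin 6) : (Lq q i).totalDegree ≤ 1 := by
  fin_cases i
  · exact (totalDegree_X (R := ℝ) (0 : Fin 3)).le
  · exact (totalDegree_X (R := ℝ) (1 : Fin 3)).le
  · exact (totalDegree_X (R := ℝ) (2 : Fin 3)).le
  · exact degree_aux _ _ _ _ _
  · exact degree_aux _ _ _ _ _
  · exact degree_aux _ _ _ _ _

theorem eval_Lq {p q : V3 × V3} (h : Mt p q) : (fun i => eval p.1 (Lq q i)) = pv p := by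
  have h0 := congrFun h 0
  have h1 := congrFun h 1
  have h2 := congrFun h 2
  simp [cross_apply] at h0 h1 h2
  funext i
  fin_cases i
  · simp [Lq, pv]
  · simp [Lq, pv]
  · simp [Lq, pv]
  · simp [Lq, pv]; linarith
  · simp [Lq, pv]; linarith
  · simp [Lq, pv]; linarith

open scoped Classical in
/-- the pairs of `S` whose flat enters the cell -/
noncomputable def Sc {ι : Type} (f : ι → MvPolynomial (Fin 6) ℝ) (S : Finset (V3 × V3))
    (σ : ι → Bool) : Finset (V3 × V3) :=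
  S.filter fun q => ∃ y : Fin 3 → ℝ, InCell f σ (fun i => eval y (Lq q i))

open scoped Classical in
theorem sum_Sc_le {ι : Type} [Fintype ι] (f : ι → MvPolynomial (Fin 6) ℝ) (D : ℕ)
    (hD : ∑ j, (f j).totalDegree ≤ D) (S : Finset (V3 × V3)) :
    ∑ σ : ι → Bool, #(Sc f S σ) ≤ (2 * D + 1) ^ 3 * #S := by
  have h1 : ∑ σ : ι → Bool, #(Sc f S σ) =
      ∑ q ∈ S, #(univ.filter fun σ : ι → Bool =>
        ∃ y : Fin 3 → ℝ, InCell f σ (fun i => eval y (Lq q i))) := by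
    simp only [Sc, card_filter]
    rw [sum_comm]
  rw [h1, mul_comm]
  refine (sum_le_card_nsmul _ _ ((2 * D + 1) ^ 3) fun q _ => ?_).trans (le_of_eq (by simp))
  have h2 := W.card_cells_param_le f (Lq q) 1 (degree_Lq q) D hD
    (univ.filter fun σ : ι → Bool =>
      ∃ y : Fin 3 → ℝ, InCell f σ (fun i => eval y (Lq q i)))
    (fun c hc => (mem_filter.mp hc).2)
  simpa using h2

open scoped Classical in
theorem Ms_Sc {ι : Type} (f : ι → MvPolynomial (Fin 6) ℝ) (S : Finset (V3 × V3))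
    (σ : ι → Bool) (p : V3 × V3) (hp : InCell f σ (pv p)) : Ms (Sc f S σ) p = Ms S p := by
  ext q
  simp only [Ms, Sc, mem_filter]
  constructor
  · rintro ⟨⟨h1, _⟩, h2⟩
    exact ⟨h1, h2⟩
  · rintro ⟨h1, h2⟩
    refine ⟨⟨h1, p.1, ?_⟩, h2⟩
    rw [eval_Lq h2]
    exact hp

theorem Good_congr {S S' : Finset (V3 × V3)} {K : ℕ} {p : V3 × V3} (h : Ms S' p = Ms S p)
    (hg : Good S K p) : Good S' K p := by
  refine ⟨fun x b hb => ?_, ?_⟩
  · rw [h]; exact hg.rho x b hb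
  · rw [h]; exact hg.plane

/-! ### real powers -/

theorem power_step (e C g g' gs ss N B' M : ℝ) (he : 0 < e) (hC : 0 < C) (hgs : 0 < gs)
    (hss : 0 ≤ ss) (hg' : 0 ≤ g') (hN : 0 ≤ N) (hB : 0 ≤ B') (hM : 0 < M)
    (h1 : gs ≤ C * ss ^ (2 + e)) (h2 : ss * g' ≤ B' * N * gs) (h3 : M * gs ≤ g)
    (h4 : g ≤ 2 * g') (h5 : (2 : ℝ) ^ (2 + e) * B' ^ (2 + e) ≤ M ^ (1 + e)) :
    g ≤ C * N ^ (2 + e) := by
  have hg : 0 < g := lt_of_lt_of_le (mul_pos hM hgs) h3
  have he2 : 0 < 2 + e := by linarith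
  have he1 : 0 < 1 + e := by linarith
  have k1 : gs * g' ^ (2 + e) ≤ C * (ss * g') ^ (2 + e) := by
    rw [Real.mul_rpow hss hg', ← mul_assoc]
    exact mul_le_mul_of_nonneg_right h1 (Real.rpow_nonneg hg' _)
  have k2 : (ss * g') ^ (2 + e) ≤ (B' * N) ^ (2 + e) * gs ^ (2 + e) := by
    rw [← Real.mul_rpow (mul_nonneg hB hN) hgs.le]
    exact Real.rpow_le_rpow (mul_nonneg hss hg') h2 he2.le
  have k3 : gs ^ (2 + e) = gs ^ (1 + e) * gs := by
    rw [show 2 + e = (1 + e) + 1 by ring, Real.rpow_add_one hgs.ne']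
  have k4 : g ^ (2 + e) = g ^ (1 + e) * g := by
    rw [show 2 + e = (1 + e) + 1 by ring, Real.rpow_add_one hg.ne']
  have k5 : g' ^ (2 + e) ≤ C * (B' * N) ^ (2 + e) * gs ^ (1 + e) := by
    have : gs * g' ^ (2 + e) ≤ gs * (C * (B' * N) ^ (2 + e) * gs ^ (1 + e)) := by
      calc gs * g' ^ (2 + e) ≤ C * (ss * g') ^ (2 + e) := k1
        _ ≤ C * ((B' * N) ^ (2 + e) * gs ^ (2 + e)) := mul_le_mul_of_nonneg_left k2 hC.le
        _ = gs * (C * (B' * N) ^ (2 + e) * gs ^ (1 + e)) := by rw [k3]; ring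
    exact le_of_mul_le_mul_left this hgs
  have k6 : M ^ (1 + e) * gs ^ (1 + e) ≤ g ^ (1 + e) := by
    rw [← Real.mul_rpow hM.le hgs.le]
    exact Real.rpow_le_rpow (mul_nonneg hM.le hgs.le) h3 he1.le
  have k7 : g ^ (2 + e) ≤ 2 ^ (2 + e) * g' ^ (2 + e) := by
    rw [← Real.mul_rpow (by norm_num) hg']
    exact Real.rpow_le_rpow hg.le h4 he2.le
  have k8 : (B' * N) ^ (2 + e) = B' ^ (2 + e) * N ^ (2 + e) := Real.mul_rpow hB hN
  have hNp : 0 ≤ N ^ (2 + e) := Real.rpow_nonneg hN _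
  have hgsp : 0 ≤ gs ^ (1 + e) := Real.rpow_nonneg hgs.le _
  have hgp : 0 < g ^ (1 + e) := Real.rpow_pos_of_pos hg _
  have h2p : (0 : ℝ) ≤ 2 ^ (2 + e) := Real.rpow_nonneg (by norm_num) _
  have k9 : g ^ (1 + e) * g ≤ g ^ (1 + e) * (C * N ^ (2 + e)) := by
    calc g ^ (1 + e) * g = g ^ (2 + e) := k4.symm
      _ ≤ 2 ^ (2 + e) * g' ^ (2 + e) := k7
      _ ≤ 2 ^ (2 + e) * (C * (B' * N) ^ (2 + e) * gs ^ (1 + e)) :=
          mul_le_mul_of_nonneg_left k5 h2p
      _ = (C * N ^ (2 + e)) * ((2 ^ (2 + e) * B' ^ (2 + e)) * gs ^ (1 + e)) := by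
          rw [k8]; ring
      _ ≤ (C * N ^ (2 + e)) * (M ^ (1 + e) * gs ^ (1 + e)) :=
          mul_le_mul_of_nonneg_left (mul_le_mul_of_nonneg_right h5 hgsp)
            (mul_nonneg hC.le hNp)
      _ ≤ (C * N ^ (2 + e)) * g ^ (1 + e) :=
          mul_le_mul_of_nonneg_left k6 (mul_nonneg hC.le hNp)
      _ = g ^ (1 + e) * (C * N ^ (2 + e)) := by ring
  exact le_of_mul_le_mul_left k9 hgp

theorem exists_m (e : ℝ) (he : 0 < e) : ∃ m : ℕ, 1 ≤ m ∧
    (2 : ℝ) ^ (2 + e) * (((2 * (72 * 2 ^ m) + 1 : ℕ) : ℝ) ^ 3) ^ (2 + e) ≤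
      ((2 : ℝ) ^ (6 * m)) ^ (1 + e) := by
  have h8 : (1 : ℝ) < (8 : ℝ) ^ e := Real.one_lt_rpow (by norm_num) he
  obtain ⟨m, hm⟩ := pow_unbounded_of_one_lt
    ((2 : ℝ) ^ (2 + e) * ((145 : ℝ) ^ 3) ^ (2 + e)) h8
  have he2 : 0 < 2 + e := by linarith
  have hc1 : (1 : ℝ) ≤ (2 : ℝ) ^ (2 + e) * ((145 : ℝ) ^ 3) ^ (2 + e) := by
    have h1 : (1 : ℝ) ≤ (2 : ℝ) ^ (2 + e) := Real.one_le_rpow (by norm_num) he2.le
    have h2 : (1 : ℝ) ≤ ((145 : ℝ) ^ 3) ^ (2 + e) := Real.one_le_rpow (by norm_num) he2.le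
    nlinarith
  refine ⟨m, ?_, ?_⟩
  · by_contra hcon
    have : m = 0 := by omega
    subst this
    rw [pow_zero] at hm
    linarith
  · have h1 : ((2 * (72 * 2 ^ m) + 1 : ℕ) : ℝ) ^ 3 ≤ (145 : ℝ) ^ 3 * 8 ^ m := by
      have h2 : ((2 * (72 * 2 ^ m) + 1 : ℕ) : ℝ) ≤ 145 * 2 ^ m := by
        push_cast
        have : (1 : ℝ) ≤ 2 ^ m := one_le_pow₀ (by norm_num)
        linarith
      have h3 : (145 : ℝ) ^ 3 * 8 ^ m = (145 * 2 ^ m) ^ 3 := by
        rw [mul_pow, ← pow_mul, mul_comm m 3, pow_mul]; norm_num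
      rw [h3]
      exact pow_le_pow_left₀ (by positivity) h2 3
    have h4 : (((2 * (72 * 2 ^ m) + 1 : ℕ) : ℝ) ^ 3) ^ (2 + e) ≤
        ((145 : ℝ) ^ 3) ^ (2 + e) * ((8 : ℝ) ^ m) ^ (2 + e) := by
      rw [← Real.mul_rpow (by positivity) (by positivity)]
      exact Real.rpow_le_rpow (by positivity) h1 he2.le
    have h5 : ((2 : ℝ) ^ (6 * m)) ^ (1 + e) = ((8 : ℝ) ^ e) ^ m * ((8 : ℝ) ^ m) ^ (2 + e) := by
      have h6 : (2 : ℝ) ^ (6 * m) = ((8 : ℝ) ^ m) ^ (2 : ℝ) := by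
        rw [Real.rpow_two, ← pow_mul, show (8 : ℝ) = 2 ^ 3 by norm_num, ← pow_mul]
        congr 1
        ring
      have h7 : ((8 : ℝ) ^ e) ^ m = ((8 : ℝ) ^ m) ^ e := by
        rw [← Real.rpow_natCast, ← Real.rpow_natCast, ← Real.rpow_mul (by norm_num),
          ← Real.rpow_mul (by norm_num), mul_comm]
      have h8p : (0 : ℝ) < (8 : ℝ) ^ m := by positivity
      rw [h6, h7, ← Real.rpow_mul h8p.le, ← Real.rpow_add h8p]
      congr 1
      ring
    rw [h5]
    calc (2 : ℝ) ^ (2 + e) * (((2 * (72 * 2 ^ m) + 1 : ℕ) : ℝ) ^ 3) ^ (2 + e)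
        ≤ (2 : ℝ) ^ (2 + e) * (((145 : ℝ) ^ 3) ^ (2 + e) * ((8 : ℝ) ^ m) ^ (2 + e)) :=
          mul_le_mul_of_nonneg_left h4 (by positivity)
      _ = ((2 : ℝ) ^ (2 + e) * ((145 : ℝ) ^ 3) ^ (2 + e)) * ((8 : ℝ) ^ m) ^ (2 + e) := by ring
      _ ≤ ((8 : ℝ) ^ e) ^ m * ((8 : ℝ) ^ m) ^ (2 + e) :=
          mul_le_mul_of_nonneg_right hm.le (by positivity)

/-! ### walls -/

theorem Fib_subset {S G G' : Finset (V3 × V3)} {B : ℕ} (h : G' ⊆ G) (hF : Fib S G B) :
    Fib S G' B := by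
  classical
  intro q0 hq0 n hn δ
  refine (card_le_card ?_).trans (hF q0 hq0 n hn δ)
  intro p hp
  obtain ⟨h1, h2⟩ := mem_filter.mp hp
  exact mem_filter.mpr ⟨h h1, h2⟩

open scoped Classical in
theorem wall_total (hW : WallStmt) (m D : ℕ) (f : Fin (6 * m) → MvPolynomial (Fin 6) ℝ)
    (hf0 : ∀ j, f j ≠ 0) (hfD : ∀ j, (f j).totalDegree ≤ D) (S G : Finset (V3 × V3)) (B : ℕ)
    (hG : ∀ p ∈ G, Good S (D ^ 2 + 2) p) (hF : Fib S G B)
    (hw : ∀ p ∈ G, ∃ j, eval (pv p) (f j) = 0) :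
    #G ≤ (6 * m * 7 ^ D) * (D * #S ^ 2 + B * (D * #S)) := by
  set H : Finset (MvPolynomial (Fin 6) ℝ) := univ.biUnion fun j => ders D (f j) with hH
  have hHc : #H ≤ 6 * m * 7 ^ D := by
    refine card_biUnion_le.trans ((sum_le_sum fun j _ => card_ders_le D (f j)).trans ?_)
    simp
  have hsub : G ⊆ H.biUnion fun h =>
      G.filter fun p => eval (pv p) h = 0 ∧ ∃ i, eval (pv p) (pderiv i h) ≠ 0 := by
    intro p hp
    obtain ⟨j, hj⟩ := hw p hp
    obtain ⟨h, hh, h1, h2⟩ := exists_mem_ders (pv p) D (f j) (hf0 j) (hfD j) hj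
    exact mem_biUnion.mpr ⟨h, mem_biUnion.mpr ⟨j, mem_univ j, hh⟩,
      mem_filter.mpr ⟨hp, h1, h2⟩⟩
  calc #G ≤ #(H.biUnion fun h =>
        G.filter fun p => eval (pv p) h = 0 ∧ ∃ i, eval (pv p) (pderiv i h) ≠ 0) :=
        card_le_card hsub
    _ ≤ ∑ h ∈ H, #(G.filter fun p => eval (pv p) h = 0 ∧ ∃ i, eval (pv p) (pderiv i h) ≠ 0) :=
        card_biUnion_le
    _ ≤ ∑ _h ∈ H, (D * #S ^ 2 + B * (D * #S)) := by
        refine sum_le_sum fun h hh => ?_
        obtain ⟨j, _, hj⟩ := mem_biUnion.mp hh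
        exact hW D h (totalDegree_of_mem_ders D D (f j) (hfD j) h hj) S _ B
          (fun p hp => hG p (mem_filter.mp hp).1) (Fib_subset (filter_subset _ _) hF)
          (fun p hp => (mem_filter.mp hp).2)
    _ = #H * (D * #S ^ 2 + B * (D * #S)) := by rw [sum_const, smul_eq_mul]
    _ ≤ _ := Nat.mul_le_mul_right _ hHc

/-! ### pigeonhole over the cells -/

open scoped Classical in
theorem exists_cell {ι : Type} [Fintype ι] (f : ι → MvPolynomial (Fin 6) ℝ) (D : ℕ)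
    (hD : ∑ j, (f j).totalDegree ≤ D) (S G : Finset (V3 × V3))
    (G' : Finset (V3 × V3)) (hG' : ∀ p, p ∈ G' ↔ p ∈ G ∧ ∀ j, eval (pv p) (f j) ≠ 0)
    (hne : G'.Nonempty) :
    ∃ σ : ι → Bool, 0 < #(G.filter fun p => InCell f σ (pv p)) ∧
      #(Sc f S σ) * #G' ≤ (2 * D + 1) ^ 3 * #S * #(G.filter fun p => InCell f σ (pv p)) := by
  let sg : V3 × V3 → (ι → Bool) := fun p j => decide (0 < eval (pv p) (f j))
  have hcell : ∀ σ, (G'.filter fun p => sg p = σ) = G.filter fun p => InCell f σ (pv p) := by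
    intro σ
    ext p
    rw [mem_filter, mem_filter, hG']
    constructor
    · rintro ⟨⟨h1, h2⟩, rfl⟩
      exact ⟨h1, fun j => ⟨h2 j, by simp [sg]⟩⟩
    · rintro ⟨h1, h2⟩
      refine ⟨⟨h1, fun j => (h2 j).1⟩, ?_⟩
      funext j
      have := (h2 j).2
      simp only [sg]
      rw [Bool.eq_iff_iff, decide_eq_true_iff]
      exact this.symm
  have hsum : ∑ σ ∈ G'.image sg, #(G.filter fun p => InCell f σ (pv p)) = #G' := by
    rw [card_eq_sum_card_image sg G']
    exact sum_congr rfl fun σ _ => by rw [hcell]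
  have hle : ∑ σ ∈ G'.image sg, #(Sc f S σ) * #G' ≤
      ∑ σ ∈ G'.image sg, (2 * D + 1) ^ 3 * #S * #(G.filter fun p => InCell f σ (pv p)) := by
    rw [← sum_mul, ← mul_sum, hsum]
    refine Nat.mul_le_mul_right _ ?_
    exact (sum_le_sum_of_subset (subset_univ _)).trans (sum_Sc_le f D hD S)
  obtain ⟨σ, hσ, h1⟩ := exists_le_of_sum_le (hne.image sg) hle
  refine ⟨σ, ?_, h1⟩
  obtain ⟨p, hp, hpσ⟩ := mem_image.mp hσ
  refine card_pos.mpr ⟨p, ?_⟩
  rw [← hcell]
  exact mem_filter.mpr ⟨hp, hpσ⟩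

open scoped Classical in
theorem core_of_wall (hW : WallStmt) : CoreStmt := by
  intro ε hε
  obtain ⟨m, hm1, hm⟩ := exists_m ε hε
  set D : ℕ := 72 * 2 ^ m with hD
  refine ⟨D ^ 2 + 2, fun B => ?_⟩
  set C : ℝ := 2 * ((6 * m * 7 ^ D : ℕ) : ℝ) * (D * (1 + B)) + 1 with hC
  have hC0 : 0 < C := by positivity
  refine ⟨C, hC0, ?_⟩
  have main : ∀ (n : ℕ) (S G : Finset (V3 × V3)), #G ≤ n → (∀ p ∈ G, Good S (D ^ 2 + 2) p) →
      Fib S G B → (#G : ℝ) ≤ C * (#S : ℝ) ^ (2 + ε) := by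
    intro n
    induction n using Nat.strong_induction_on with
    | _ n ih =>
      intro S G hn hGood hF
      rcases G.eq_empty_or_nonempty with h0 | hGne
      · rw [h0, card_empty, Nat.cast_zero]
        positivity
      have hS1 : 1 ≤ #S := by
        obtain ⟨p, hp⟩ := hGne
        have h1 := (hGood p hp).rho 0 (fun _ => 1) (by
          intro h
          have := congrFun h 0
          simp at this)
        have h2 : #((Ms S p).filter fun q => crossProduct (q.1 - 0) (fun _ => 1) ≠ 0) ≤ #S :=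
          card_le_card ((filter_subset _ _).trans (filter_subset _ _))
        omega
      obtain ⟨f, hf0, hdeg, hcell⟩ := cell_partition6 m G
      set G' := G.filter fun p => ∀ j, eval (pv p) (f j) ≠ 0 with hG'
      set Wl := G.filter fun p => ¬ ∀ j, eval (pv p) (f j) ≠ 0 with hWl
      have hsplit : #G' + #Wl = #G := card_filter_add_card_filter_not _
      by_cases hA : #G ≤ 2 * #G'
      · have hGpos := card_pos.mpr hGne
        have hG'ne : G'.Nonempty := card_pos.mp (by omega)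
        obtain ⟨σ, hσ1, hσ2⟩ := exists_cell f D hdeg S G G' (fun p => by rw [hG', mem_filter]) hG'ne
        set Gs := G.filter fun p => InCell f σ (pv p) with hGs
        have h3 : 2 ^ (6 * m) * #Gs ≤ #G := hcell σ
        have hlt : #Gs < n := by
          have h4 : 2 ^ 1 ≤ 2 ^ (6 * m) := Nat.pow_le_pow_right (by norm_num) (by omega)
          have h5 : 2 * #Gs ≤ 2 ^ (6 * m) * #Gs := Nat.mul_le_mul_right _ h4
          omega
        have hMs : ∀ p ∈ Gs, Ms (Sc f S σ) p = Ms S p := fun p hp =>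
          Ms_Sc f S σ p (mem_filter.mp hp).2
        have hih := ih (#Gs) hlt (Sc f S σ) Gs le_rfl
          (fun p hp => Good_congr (hMs p hp) (hGood p (mem_filter.mp hp).1))
          (fun q0 hq0 nn hnn δ => by
            refine (card_le_card ?_).trans (hF q0 (mem_filter.mp hq0).1 nn hnn δ)
            intro p hp
            obtain ⟨h6, h7⟩ := mem_filter.mp hp
            rw [hMs p h6] at h7
            exact mem_filter.mpr ⟨(mem_filter.mp h6).1, h7⟩)
        refine power_step ε C _ (#G') (#Gs) (#(Sc f S σ)) (#S)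
          (((2 * D + 1 : ℕ) : ℝ) ^ 3) ((2 : ℝ) ^ (6 * m)) hε hC0 (by exact_mod_cast hσ1)
          (by positivity) (by positivity) (by positivity) (by positivity) (by positivity)
          hih ?_ ?_ ?_ hm
        · exact_mod_cast hσ2
        · exact_mod_cast h3
        · exact_mod_cast hA
      · have hB : #G ≤ 2 * #Wl := by omega
        have hfD : ∀ j, (f j).totalDegree ≤ D := fun j =>
          (single_le_sum (f := fun j => (f j).totalDegree) (fun _ _ => Nat.zero_le _)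
            (mem_univ j)).trans hdeg
        have h1 := wall_total hW m D f hf0 hfD S Wl B
          (fun p hp => hGood p (mem_filter.mp hp).1) (Fib_subset (filter_subset _ _) hF)
          (fun p hp => by
            have := (mem_filter.mp hp).2
            push Not at this
            exact this)
        have h2 : #G ≤ 2 * ((6 * m * 7 ^ D) * (D * (1 + B) * #S ^ 2)) := by
          refine hB.trans (Nat.mul_le_mul_left 2 (h1.trans (Nat.mul_le_mul_left _ ?_)))
          have h3 : #S ≤ #S ^ 2 := Nat.le_self_pow two_ne_zero _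
          have h4 : B * (D * #S) ≤ B * (D * #S ^ 2) :=
            Nat.mul_le_mul_left _ (Nat.mul_le_mul_left _ h3)
          calc D * #S ^ 2 + B * (D * #S) ≤ D * #S ^ 2 + B * (D * #S ^ 2) :=
                Nat.add_le_add_left h4 _
            _ = D * (1 + B) * #S ^ 2 := by ring
        have h3 : (#G : ℝ) ≤ 2 * (((6 * m * 7 ^ D : ℕ) : ℝ) * (D * (1 + B) * (#S : ℝ) ^ 2)) := by
          exact_mod_cast h2
        have hS1' : (1 : ℝ) ≤ (#S : ℝ) := by exact_mod_cast hS1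
        have h4 : (#S : ℝ) ^ 2 ≤ (#S : ℝ) ^ (2 + ε) := by
          rw [← Real.rpow_two]
          exact Real.rpow_le_rpow_of_exponent_le hS1' (by linarith)
        have h5 : 0 ≤ (#S : ℝ) ^ (2 + ε) := by positivity
        calc (#G : ℝ) ≤ 2 * (((6 * m * 7 ^ D : ℕ) : ℝ) * (D * (1 + B) * (#S : ℝ) ^ 2)) := h3
          _ = (2 * ((6 * m * 7 ^ D : ℕ) : ℝ) * (D * (1 + B))) * (#S : ℝ) ^ 2 := by ring
          _ ≤ (2 * ((6 * m * 7 ^ D : ℕ) : ℝ) * (D * (1 + B))) * (#S : ℝ) ^ (2 + ε) :=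
              mul_le_mul_of_nonneg_left h4 (by positivity)
          _ ≤ C * (#S : ℝ) ^ (2 + ε) := by
              rw [hC, add_mul, one_mul]
              linarith
  exact fun S G h1 h2 => main _ S G le_rfl h1 h2

end Vale.Agent.P054.PL
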