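import Vale.Agent.P054.Y.PL.Final
import Vale.Agent.P054.R.Sections

/-! `PlanarStmt` of block R from Theorem PL. -/

set_option linter.all false

namespace Vale.Agent.P054.PL

open Matrix
open Vale.Agent.P054.R (act OnP Orth rho off prt refl PlanarStmt)

theorem perp_zero {u w n z : V3} (hu : n ⬝ᵥ u = 0) (hw : n ⬝ᵥ w = 0) (hn : n ≠ 0)
    (huw : crossProduct u w ≠ 0) (h1 : u ⬝ᵥ z = 0) (h2 : w ⬝ᵥ z = 0) (h3 : n ⬝ᵥ z = 0) : z = 0 := by
  -- `z` and `n` are multiples of `u × w`
  have hz : crossProduct z (crossProduct u w) = 0 := by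
    rw [dp] at h1 h2
    simp only [cr]
    apply v3_eq_zero <;> simp only [Matrix.cons_val]
    · linear_combination u 0 * h2 - w 0 * h1
    · linear_combination u 1 * h2 - w 1 * h1
    · linear_combination u 2 * h2 - w 2 * h1
  have hnn : crossProduct n (crossProduct u w) = 0 := by
    rw [dp] at hu hw
    simp only [cr]
    apply v3_eq_zero <;> simp only [Matrix.cons_val]
    · linear_combination u 0 * hw - w 0 * hu
    · linear_combination u 1 * hw - w 1 * hu
    · linear_combination u 2 * hw - w 2 * hu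
  have ez := par_of_cross hz huw
  have en := par_of_cross hnn huw
  set c := crossProduct u w
  set α := (z ⬝ᵥ c) / (c ⬝ᵥ c)
  set β := (n ⬝ᵥ c) / (c ⬝ᵥ c)
  have hβ : β ≠ 0 := by
    intro h
    rw [h, zero_smul] at en
    exact hn en
  have hcc : c ⬝ᵥ c ≠ 0 := fun hc => huw (v3_self hc)
  rw [ez, en, smul_dotProduct, dotProduct_smul] at h3
  simp only [smul_eq_mul] at h3
  have hα : α = 0 := by
    rcases mul_eq_zero.1 h3 with h | h
    · exact absurd h hβ
    · rcases mul_eq_zero.1 h with h | h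
      · exact h
      · exact absurd h hcc
  rw [ez, hα, zero_smul]

theorem fix_eq_one {A : Matrix (Fin 3) (Fin 3) ℝ} (hA : Aᵀ * A = 1) {u w n : V3}
    (hu : n ⬝ᵥ u = 0) (hw : n ⬝ᵥ w = 0) (hn : n ≠ 0) (huw : crossProduct u w ≠ 0)
    (h1 : A.mulVec u = u) (h2 : A.mulVec w = w) (h3 : A.mulVec n = n) : A = 1 := by
  have tr : ∀ y : V3, A.mulVec y = y → ∀ x : V3, y ⬝ᵥ (A.mulVec x - x) = 0 := by
    intro y hy x
    have h4 : Aᵀ.mulVec y = y := by
      conv_lhs => rw [← hy]
      rw [Matrix.mulVec_mulVec, hA, Matrix.one_mulVec]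
    have h5 : y ⬝ᵥ A.mulVec x = y ⬝ᵥ x := by
      rw [Matrix.dotProduct_mulVec, ← Matrix.mulVec_transpose, h4]
    rw [dotProduct_sub, h5, sub_self]
  have h6 : ∀ x : V3, A.mulVec x = x := by
    intro x
    have := perp_zero hu hw hn huw (tr u h1 x) (tr w h2 x) (tr n h3 x)
    exact sub_eq_zero.1 this
  ext i j
  have h7 := congrFun (h6 (Pi.single j 1)) i
  rw [Matrix.mulVec_single_one] at h7
  rw [Matrix.one_apply]
  simp [Pi.single_apply] at h7
  exact h7

theorem eq_or_prt {g h : Mo} (hg : g.1ᵀ * g.1 = 1) (hh : h.1ᵀ * h.1 = 1) {n : V3} {d : ℝ}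
    (hn : n ≠ 0) {a b c : V3} (habc : crossProduct (b - a) (c - a) ≠ 0)
    (ha : OnP n d a) (hb : OnP n d b) (hc : OnP n d c)
    (ea : act g a = act h a) (eb : act g b = act h b) (ec : act g c = act h c) :
    g = h ∨ prt g n d = h := by
  have hgT : g.1 * g.1ᵀ = 1 := mul_eq_one_comm.1 hg
  set A : Matrix (Fin 3) (Fin 3) ℝ := g.1ᵀ * h.1 with hAdef
  have hA : Aᵀ * A = 1 := by
    rw [hAdef, Matrix.transpose_mul, Matrix.transpose_transpose, Matrix.mul_assoc,
      ← Matrix.mul_assoc g.1, hgT, Matrix.one_mul, hh]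
  have hgA : g.1 * A = h.1 := by rw [hAdef, ← Matrix.mul_assoc, hgT, Matrix.one_mul]
  have fixd : ∀ x y : V3, act g x = act h x → act g y = act h y → A.mulVec (y - x) = y - x := by
    intro x y ex ey
    have h1 : g.1.mulVec (y - x) = h.1.mulVec (y - x) := by
      unfold act at ex ey
      rw [Matrix.mulVec_sub, Matrix.mulVec_sub]
      have h2 := congrArg₂ (· - ·) ey ex
      simpa using h2
    rw [hAdef, ← Matrix.mulVec_mulVec, ← h1, Matrix.mulVec_mulVec, hg, Matrix.one_mulVec]
  set u := b - a with hu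
  set w := c - a with hw
  have hAu : A.mulVec u = u := fixd a b ea eb
  have hAw : A.mulVec w = w := fixd a c ea ec
  have hnu : n ⬝ᵥ u = 0 := by
    unfold OnP at ha hb
    rw [hu, dotProduct_sub, ha, hb, sub_self]
  have hnw : n ⬝ᵥ w = 0 := by
    unfold OnP at ha hc
    rw [hw, dotProduct_sub, ha, hc, sub_self]
  have isoA : ∀ x y : V3, A.mulVec x ⬝ᵥ A.mulVec y = x ⬝ᵥ y := by
    intro x y
    rw [Matrix.dotProduct_mulVec, Matrix.vecMul_mulVec, hA, Matrix.vecMul_one]
  -- `A n = ± n`
  have hAn : A.mulVec n = n ∨ A.mulVec n = -n := by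
    have k1 : u ⬝ᵥ A.mulVec n = 0 := by
      have := isoA u n
      rw [hAu, dotProduct_comm u n, hnu] at this
      exact this
    have k2 : w ⬝ᵥ A.mulVec n = 0 := by
      have := isoA w n
      rw [hAw, dotProduct_comm w n, hnw] at this
      exact this
    have hnn : n ⬝ᵥ n ≠ 0 := fun hc => hn (v3_self hc)
    set lam := (n ⬝ᵥ A.mulVec n) / (n ⬝ᵥ n) with hlam
    have k3 : A.mulVec n = lam • n := by
      have := perp_zero hnu hnw hn habc (z := A.mulVec n - lam • n)
        (by rw [dotProduct_sub, k1, dotProduct_smul, dotProduct_comm u n, hnu]; simp)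
        (by rw [dotProduct_sub, k2, dotProduct_smul, dotProduct_comm w n, hnw]; simp)
        (by
          rw [dotProduct_sub, dotProduct_smul, hlam, smul_eq_mul]
          field_simp
          ring)
      exact sub_eq_zero.1 this
    have k4 := isoA n n
    rw [k3, smul_dotProduct, dotProduct_smul, smul_eq_mul, smul_eq_mul] at k4
    have k5 : lam * lam = 1 := by
      have : (lam * lam) * (n ⬝ᵥ n) = 1 * (n ⬝ᵥ n) := by linarith
      exact mul_right_cancel₀ hnn this
    rcases mul_self_eq_one_iff.1 k5 with h | h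
    · left; rw [k3, h, one_smul]
    · right; rw [k3, h, neg_smul, one_smul]
  rcases hAn with hAn | hAn
  · left
    have h1 := fix_eq_one hA hnu hnw hn habc hAu hAw hAn
    have h2 : g.1 = h.1 := by rw [← hgA, h1, Matrix.mul_one]
    refine Prod.ext h2 ?_
    unfold act at ea
    rw [h2] at ea
    exact add_left_cancel ea
  · right
    have ho := R.orth_prt (show Orth g from hg) n d hn
    set k := prt g n d with hk
    have ek : ∀ x : V3, OnP n d x → act g x = act h x → act k x = act h x := by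
      intro x hx he
      rw [hk, R.act_prt g n d hn, R.refl_of_OnP hx, he]
    -- `A' = kᵀ h` fixes `u, w, n`
    have hkT : k.1 * k.1ᵀ = 1 := mul_eq_one_comm.1 ho
    have hA' : (k.1ᵀ * h.1)ᵀ * (k.1ᵀ * h.1) = 1 := by
      rw [Matrix.transpose_mul, Matrix.transpose_transpose, Matrix.mul_assoc,
        ← Matrix.mul_assoc k.1, hkT, Matrix.one_mul, hh]
    have fixk : ∀ x y : V3, act k x = act h x → act k y = act h y →
        (k.1ᵀ * h.1).mulVec (y - x) = y - x := by
      intro x y ex ey
      have h1 : k.1.mulVec (y - x) = h.1.mulVec (y - x) := by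
        unfold act at ex ey
        rw [Matrix.mulVec_sub, Matrix.mulVec_sub]
        have h2 := congrArg₂ (· - ·) ey ex
        simpa using h2
      rw [← Matrix.mulVec_mulVec, ← h1, Matrix.mulVec_mulVec, ho, Matrix.one_mulVec]
    have hkn : (k.1ᵀ * h.1).mulVec n = n := by
      have hnn : n ⬝ᵥ n ≠ 0 := fun hc => hn (v3_self hc)
      have h1 : k.1.mulVec n = - g.1.mulVec n := by
        rw [hk]
        unfold prt
        simp only
        rw [← Matrix.mulVec_mulVec, Matrix.sub_mulVec, Matrix.one_mulVec, Matrix.smul_mulVec,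
          Matrix.vecMulVec_mulVec]
        have h2 : n - (2 / (n ⬝ᵥ n)) • (MulOpposite.op (n ⬝ᵥ n) • n) = -n := by
          funext i
          simp
          field_simp
          ring
        rw [h2, Matrix.mulVec_neg]
      have h2 : h.1.mulVec n = k.1.mulVec n := by
        rw [h1, ← hgA, ← Matrix.mulVec_mulVec, hAn, Matrix.mulVec_neg]
      rw [← Matrix.mulVec_mulVec, h2, Matrix.mulVec_mulVec, ho, Matrix.one_mulVec]
    have h1 := fix_eq_one hA' hnu hnw hn habc (fixk a b (ek a ha ea) (ek b hb eb))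
      (fixk a c (ek a ha ea) (ek c hc ec)) hkn
    have h2 : k.1 = h.1 := by
      have h3 : k.1 * (k.1ᵀ * h.1) = h.1 := by rw [← Matrix.mul_assoc, hkT, Matrix.one_mul]
      rw [← h3, h1, Matrix.mul_one]
    refine Prod.ext h2 ?_
    have h3 := ek a ha ea
    unfold act at h3
    rw [h2] at h3
    exact add_left_cancel h3

/-- three non collinear points -/
theorem exists_three {S : Finset V3} (h : 1 ≤ rho S) : ∃ a ∈ S, ∃ b ∈ S, ∃ c ∈ S,
    crossProduct (b - a) (c - a) ≠ 0 := by
  classical
  by_contra hcon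
  push Not at hcon
  have hex : ∃ x b : V3, b ≠ 0 ∧ ∀ c ∈ S, R.OnL x b c := by
    by_cases h1 : ∃ a ∈ S, ∃ b ∈ S, a ≠ b
    · obtain ⟨a, ha, b, hb, hab⟩ := h1
      refine ⟨a, b - a, fun hc => hab (sub_eq_zero.1 hc).symm, fun c hc => ?_⟩
      unfold R.OnL
      have h2 := hcon a ha b hb c hc
      rw [← cross_anticomm, h2, neg_zero]
    · push Not at h1
      rcases S.eq_empty_or_nonempty with he | ⟨a, ha⟩
      · refine ⟨0, ![1, 0, 0], fun hc => by simpa using congrFun hc 0, fun c hc => ?_⟩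
        rw [he] at hc
        exact absurd hc (Finset.notMem_empty c)
      · refine ⟨a, ![1, 0, 0], fun hc => by simpa using congrFun hc 0, fun c hc => ?_⟩
        rw [← h1 a ha c hc]
        unfold R.OnL
        simp
  obtain ⟨x, b, hb, hall⟩ := hex
  have h2 := R.rho_le_off S x b hb
  have h3 : off S x b = 0 := by
    unfold off
    rw [Finset.card_eq_zero, Finset.filter_eq_empty_iff]
    intro c hc
    simpa using hall c hc
  omega

theorem planarStmt (hC : CoreStmt) : PlanarStmt := by
  classical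
  intro ε hε
  obtain ⟨K, hK⟩ := pl_final hC ε hε
  refine ⟨max K 2, fun K2 => ?_⟩
  obtain ⟨C, hC0, hC1⟩ := hK (K2 ^ 3 + 1)
  refine ⟨C, hC0, fun X Y G hO hG => ?_⟩
  set S : Finset (V3 × V3) := X ×ˢ Y with hS
  have hcard : (S.card : ℝ) = (X.card : ℝ) * Y.card := by
    rw [hS, Finset.card_product]; push_cast; ring
  rw [← hcard]
  have hmem : ∀ (g : Mo) (q : V3 × V3), q ∈ MM S g ↔ q.1 ∈ R.M g X Y ∧ q.2 = act g q.1 := by
    intro g q
    rw [mem_MM, hS, Finset.mem_product]
    unfold R.M mm act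
    rw [Finset.mem_filter]
    constructor
    · rintro ⟨⟨h1, h2⟩, h3⟩
      exact ⟨⟨h1, by rw [h3]; exact h2⟩, h3.symm⟩
    · rintro ⟨⟨h1, h2⟩, h3⟩
      exact ⟨⟨h1, by rw [h3]; exact h2⟩, h3.symm⟩
  have hMM : ∀ g : Mo, MM S g = (R.M g X Y).image (fun a => (a, act g a)) := by
    intro g
    ext q
    rw [hmem, Finset.mem_image]
    constructor
    · rintro ⟨h1, h2⟩
      exact ⟨q.1, h1, Prod.ext rfl h2.symm⟩
    · rintro ⟨a, ha, rfl⟩
      exact ⟨ha, rfl⟩
  choose! hrho n d hn hpl hprt using hG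
  refine hC1 S G hO ?_ ?_
  · intro g hg
    refine ⟨?_, ⟨n g, hn g hg, ?_⟩⟩
    · intro x b hb
      have h1 : ((MM S g).filter (fun q => crossProduct (q.1 - x) b ≠ 0)).card =
          off (R.M g X Y) x b := by
        rw [hMM, Finset.filter_image, Finset.card_image_of_injective]
        · unfold off
          apply congrArg
          ext a
          rw [Finset.mem_filter, Finset.mem_filter]
          rfl
        · intro a a' h
          exact congrArg Prod.fst h
      rw [h1]
      exact (le_max_left K 2).trans ((hrho g hg).trans (R.rho_le_off _ _ _ hb))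
    · intro q hq q' hq'
      have h1 := hpl g hg q.1 ((hmem g q).1 hq).1
      have h2 := hpl g hg q'.1 ((hmem g q').1 hq').1
      unfold OnP at h1 h2
      rw [dotProduct_sub, h1, h2, sub_self]
  · intro h hh
    set F := G.filter (fun g => ∀ q ∈ S, mm g q → mm h q) with hF
    have hFm : ∀ g ∈ F, g ∈ G ∧ ∀ a ∈ R.M g X Y, a ∈ R.M h X Y ∧ act g a = act h a := by
      intro g hg
      rw [hF, Finset.mem_filter] at hg
      refine ⟨hg.1, fun a ha => ?_⟩
      have h1 : (a, act g a) ∈ MM S g := (hmem g _).2 ⟨ha, rfl⟩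
      have h2 := hg.2 _ (mem_MM.1 h1).1 (mem_MM.1 h1).2
      have h3 : act h a = act g a := h2
      have h4 : (a, act g a) ∈ MM S h := mem_MM.2 ⟨(mem_MM.1 h1).1, h2⟩
      exact ⟨((hmem h _).1 h4).1, h3.symm⟩
    set F' := F.filter (fun g => prt g (n g) (d g) = h) with hF'
    have hsub : F ⊆ insert h F' := by
      intro g hg
      obtain ⟨hgG, hga⟩ := hFm g hg
      obtain ⟨a, ha, b, hb, c, hc, habc⟩ := exists_three (S := R.M g X Y)
        (le_trans (le_trans (by norm_num) (le_max_right K 2)) (hrho g hgG))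
      rcases eq_or_prt (hO g hgG) hh (hn g hgG) habc (hpl g hgG a ha) (hpl g hgG b hb)
        (hpl g hgG c hc) (hga a ha).2 (hga b hb).2 (hga c hc).2 with h1 | h1
      · rw [h1]; exact Finset.mem_insert_self _ _
      · exact Finset.mem_insert_of_mem (Finset.mem_filter.2 ⟨hg, h1⟩)
    have hF'card : F'.card ≤ K2 ^ 3 := by
      rcases F'.eq_empty_or_nonempty with he | ⟨g0, hg0⟩
      · rw [he]; simp
      have hF'm : ∀ g ∈ F', g ∈ G ∧ prt g (n g) (d g) = h := fun g hg =>
        ⟨(hFm g (Finset.mem_filter.1 hg).1).1, (Finset.mem_filter.1 hg).2⟩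
      have hK2 : rho (R.M h X Y) ≤ K2 := by
        have := hprt g0 (hF'm g0 hg0).1
        rwa [(hF'm g0 hg0).2] at this
      have hsec : ∀ g ∈ F', (R.M h X Y).filter (OnP (n g) (d g)) = R.M g X Y := by
        intro g hg
        obtain ⟨hgG, hgp⟩ := hF'm g hg
        ext a
        rw [Finset.mem_filter, ← hgp]
        constructor
        · rintro ⟨h1, h2⟩
          exact (R.M_prt_plane g (hn g hgG) X Y h2).1 h1
        · intro h1
          have h2 := hpl g hgG a h1
          exact ⟨(R.M_prt_plane g (hn g hgG) X Y h2).2 h1, h2⟩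
      have h1 := R.sections (R.M h X Y) Mo F' n d (fun g hg => hn g (hF'm g hg).1) (by
        intro g hg g' hg' hne hall
        apply hne
        have e1 := R.prt_prt g (n g) (d g) (hn g (hF'm g hg).1)
        have e2 := R.prt_prt g' (n g') (d g') (hn g' (hF'm g' hg').1)
        rw [(hF'm g hg).2] at e1
        rw [(hF'm g' hg').2] at e2
        rw [← e1, ← e2]
        exact R.prt_congr h (hn g (hF'm g hg).1) (hn g' (hF'm g' hg').1) hall) (by
        intro g hg
        have h2 := hsec g hg
        have h4 := hrho g (hF'm g hg).1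
        have h5 := le_trans (le_max_right K 2) h4
        rw [← h2] at h5
        convert h5)
      have h2 : F'.card * 8 ≤ ∑ g ∈ F', (rho (R.M g X Y)) ^ 3 := by
        rw [← smul_eq_mul, ← Finset.sum_const]
        refine Finset.sum_le_sum (fun g hg => ?_)
        have h4 := (le_max_right K 2).trans (hrho g (hF'm g hg).1)
        calc 8 = 2 ^ 3 := by norm_num
          _ ≤ (rho (R.M g X Y)) ^ 3 := Nat.pow_le_pow_left h4 3
      have h3 : ∑ g ∈ F', (rho (R.M g X Y)) ^ 3 ≤ 4 * rho (R.M h X Y) ^ 3 := by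
        refine le_trans (le_of_eq (Finset.sum_congr rfl fun g hg => ?_)) h1
        rw [← hsec g hg]
      have h4 : rho (R.M h X Y) ^ 3 ≤ K2 ^ 3 := Nat.pow_le_pow_left hK2 3
      omega
    exact (Finset.card_le_card hsub).trans ((Finset.card_insert_le _ _).trans (by omega))

end Vale.Agent.P054.PL
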