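import Vale.Agent.P054.Y.PL.Defs
import Mathlib.Algebra.MvPolynomial.Funext

/-! P054, block PL: `LineStmt`, `PlaneStmt`, `PlanesStmt` (helper249). -/

namespace Vale.Agent.P054.PL

open MvPolynomial Matrix

/-- the restriction of `f` to the line `x + t s` -/
noncomputable def lp (x s : V3) (f : MvPolynomial (Fin 3) ℝ) : Polynomial ℝ :=
  aeval (fun i => Polynomial.C (x i) + Polynomial.C (s i) * Polynomial.X) f

theorem lp_eval (x s : V3) (f : MvPolynomial (Fin 3) ℝ) (t : ℝ) :
    (lp x s f).eval t = eval (x + t • s) f := by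
  unfold lp
  have h : (Polynomial.evalRingHom t).comp ((aeval (fun i => Polynomial.C (x i) +
      Polynomial.C (s i) * Polynomial.X) : MvPolynomial (Fin 3) ℝ →ₐ[ℝ] Polynomial ℝ) :
      MvPolynomial (Fin 3) ℝ →+* Polynomial ℝ) = MvPolynomial.eval (x + t • s) := by
    apply MvPolynomial.ringHom_ext
    · intro r
      rw [RingHom.comp_apply, RingHom.coe_coe, MvPolynomial.aeval_C, MvPolynomial.eval_C]
      exact Polynomial.eval_C
    · intro i
      rw [RingHom.comp_apply, RingHom.coe_coe, MvPolynomial.aeval_X, MvPolynomial.eval_X,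
        Polynomial.coe_evalRingHom, Polynomial.eval_add, Polynomial.eval_C_mul, Polynomial.eval_C,
        Polynomial.eval_X, Pi.add_apply, Pi.smul_apply, smul_eq_mul, mul_comm]
  exact congrArg (fun φ => φ f) h

theorem lp_natDegree (x s : V3) (f : MvPolynomial (Fin 3) ℝ) (D : ℕ) (h : f.totalDegree ≤ D) :
    (lp x s f).natDegree ≤ D := by
  unfold lp
  have := MvPolynomial.aeval_natDegree_le f h
    (fun i => Polynomial.C (x i) + Polynomial.C (s i) * Polynomial.X) (n := 1) (by
      intro i
      refine le_trans (Polynomial.natDegree_add_le _ _) ?_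
      simp only [Polynomial.natDegree_C, zero_le, sup_of_le_right]
      refine le_trans (Polynomial.natDegree_C_mul_le _ _) ?_
      exact Polynomial.natDegree_X_le)
  simpa using this

theorem lineStmt : LineStmt := by
  intro D f hf x s hex T hT
  obtain ⟨t0, ht0⟩ := hex
  have hne : lp x s f ≠ 0 := by
    intro h
    apply ht0
    rw [← lp_eval, h, Polynomial.eval_zero]
  have hsub : T ⊆ (lp x s f).roots.toFinset := by
    intro t ht
    rw [Multiset.mem_toFinset, Polynomial.mem_roots hne, Polynomial.IsRoot, lp_eval]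
    exact hT t ht
  calc T.card ≤ (lp x s f).roots.toFinset.card := Finset.card_le_card hsub
    _ ≤ Multiset.card (lp x s f).roots := Multiset.toFinset_card_le _
    _ ≤ (lp x s f).natDegree := Polynomial.card_roots' _
    _ ≤ D := lp_natDegree x s f D hf

/-- the plane statement in coordinates of the plane -/
theorem plane_aux (D : ℕ) (f : MvPolynomial (Fin 3) ℝ) (hf : f.totalDegree ≤ D)
    (x e1 e2 : V3) (A : Finset (ℝ × ℝ)) (hA : D < A.card) (hne : ∀ s ∈ A, s ≠ 0)
    (h0 : ∀ s ∈ A, ∀ t : ℝ, eval (x + (t * s.1) • e1 + (t * s.2) • e2) f = 0)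
    (hd : ∀ s ∈ A, ∀ s' ∈ A, s ≠ s' → s.1 * s'.2 - s.2 * s'.1 ≠ 0) (p q : ℝ) :
    eval (x + p • e1 + q • e2) f = 0 := by
  classical
  by_contra hpq
  -- (p, q) is not zero
  obtain ⟨s0, hs0⟩ : A.Nonempty := Finset.card_pos.mp (by omega)
  have hv : ¬ (p = 0 ∧ q = 0) := by
    rintro ⟨rfl, rfl⟩
    apply hpq
    have := h0 s0 hs0 0
    simpa using this
  -- the slope
  obtain ⟨lam, hlam⟩ := Infinite.exists_notMem_finset
    (insert (q / p) (A.image (fun s => s.2 / s.1)))
  rw [Finset.mem_insert, not_or] at hlam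
  obtain ⟨hl1, hl2⟩ := hlam
  have hvd : p * lam - q ≠ 0 := by
    intro h
    by_cases hp : p = 0
    · apply hv
      refine ⟨hp, ?_⟩
      rw [hp] at h
      linarith
    · apply hl1
      field_simp
      linarith
  have hsd : ∀ s ∈ A, s.1 * lam - s.2 ≠ 0 := by
    intro s hs h
    by_cases hp : s.1 = 0
    · apply hne s hs
      rw [hp] at h
      ext
      · exact hp
      · simp only [Prod.snd_zero]
        linarith
    · apply hl2
      rw [Finset.mem_image]
      refine ⟨s, hs, ?_⟩
      field_simp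
      linarith
  -- the parameter of the crossing point with the line of direction s
  set τ : ℝ × ℝ → ℝ := fun s => (p * s.2 - q * s.1) / (s.1 * lam - s.2) with hτ
  have hτ0 : ∀ s ∈ A, (p + τ s) * s.2 - (q + τ s * lam) * s.1 = 0 := by
    intro s hs
    have := hsd s hs
    rw [hτ]
    field_simp
    ring
  have hinj : Set.InjOn τ (A : Set (ℝ × ℝ)) := by
    intro s hs s' hs' hss
    by_contra hne'
    have d := hd s hs s' hs' hne'
    have a1 := hτ0 s hs
    have a2 := hτ0 s' hs'
    rw [← hss] at a2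
    have b1 : (p + τ s) * (s.1 * s'.2 - s.2 * s'.1) = 0 := by
      linear_combination s.1 * a2 - s'.1 * a1
    have b2 : (q + τ s * lam) * (s.1 * s'.2 - s.2 * s'.1) = 0 := by
      linear_combination s.2 * a2 - s'.2 * a1
    have c1 := (mul_eq_zero.mp b1).resolve_right d
    have c2 := (mul_eq_zero.mp b2).resolve_right d
    apply hvd
    linear_combination lam * c1 - c2
  have hT := lineStmt D f hf (x + p • e1 + q • e2) (e1 + lam • e2)
    ⟨0, by simpa using hpq⟩ (A.image τ) (by
      intro t ht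
      rw [Finset.mem_image] at ht
      obtain ⟨s, hs, rfl⟩ := ht
      have a1 := hτ0 s hs
      -- multiple r of s
      obtain ⟨r, hr1, hr2⟩ : ∃ r, p + τ s = r * s.1 ∧ q + τ s * lam = r * s.2 := by
        by_cases hp : s.1 = 0
        · have hs2 : s.2 ≠ 0 := by
            intro h
            exact hne s hs (Prod.ext hp h)
          refine ⟨(q + τ s * lam) / s.2, ?_, ?_⟩
          · rw [hp] at a1 ⊢
            have : (p + τ s) * s.2 = 0 := by linarith
            rw [(mul_eq_zero.mp this).resolve_right hs2]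
            simp
          · field_simp
        · refine ⟨(p + τ s) / s.1, ?_, ?_⟩
          · field_simp
          · field_simp
            linarith
      have h := h0 s hs r
      rw [← hr1, ← hr2] at h
      rw [← h]
      congr 1
      congr 1
      ext i
      simp only [Pi.add_apply, Pi.smul_apply, smul_eq_mul]
      ring)
  rw [Finset.card_image_of_injOn hinj] at hT
  omega

theorem dot3 (a b : V3) : a ⬝ᵥ b = a 0 * b 0 + a 1 * b 1 + a 2 * b 2 := by
  simp [dotProduct, Fin.sum_univ_three]

theorem dot_self_ne (a : V3) (ha : a ≠ 0) : a 0 * a 0 + a 1 * a 1 + a 2 * a 2 ≠ 0 := by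
  intro h
  apply ha
  have h0 := mul_self_nonneg (a 0)
  have h1 := mul_self_nonneg (a 1)
  have h2 := mul_self_nonneg (a 2)
  have e0 : a 0 = 0 := mul_self_eq_zero.mp (by linarith)
  have e1 : a 1 = 0 := mul_self_eq_zero.mp (by linarith)
  have e2 : a 2 = 0 := mul_self_eq_zero.mp (by linarith)
  funext i
  fin_cases i
  · exact e0
  · exact e1
  · exact e2

theorem cross0 (a b : V3) : crossProduct a b 0 = a 1 * b 2 - a 2 * b 1 := by
  simp [cross_apply]

theorem cross1 (a b : V3) : crossProduct a b 1 = a 2 * b 0 - a 0 * b 2 := by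
  simp [cross_apply]

theorem cross2 (a b : V3) : crossProduct a b 2 = a 0 * b 1 - a 1 * b 0 := by
  simp [cross_apply]

/-- coordinates in the plane orthogonal to `n`: the basis `u`, `n × u` -/
theorem plane_coord (n u a : V3) (hn : n ≠ 0) (hu : u ≠ 0) (hnu : n ⬝ᵥ u = 0) (hna : n ⬝ᵥ a = 0) :
    a = ((u ⬝ᵥ a) / (u 0 * u 0 + u 1 * u 1 + u 2 * u 2)) • u +
      ((crossProduct n u ⬝ᵥ a) / ((n 0 * n 0 + n 1 * n 1 + n 2 * n 2) *
        (u 0 * u 0 + u 1 * u 1 + u 2 * u 2))) • crossProduct n u := by
  have hN := dot_self_ne n hn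
  have hU := dot_self_ne u hu
  have hNU := mul_ne_zero hN hU
  rw [dot3] at hnu hna
  have key : ∀ (z v w p q : ℝ), z * ((n 0 * n 0 + n 1 * n 1 + n 2 * n 2) *
      (u 0 * u 0 + u 1 * u 1 + u 2 * u 2)) =
      (n 0 * n 0 + n 1 * n 1 + n 2 * n 2) * p * v + q * w →
      z = p / (u 0 * u 0 + u 1 * u 1 + u 2 * u 2) * v +
        q / ((n 0 * n 0 + n 1 * n 1 + n 2 * n 2) * (u 0 * u 0 + u 1 * u 1 + u 2 * u 2)) * w := by
    intro z v w p q h
    generalize (n 0 * n 0 + n 1 * n 1 + n 2 * n 2) = N at *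
    generalize (u 0 * u 0 + u 1 * u 1 + u 2 * u 2) = U at *
    have e : z = z * (N * U) / (N * U) := by
      rw [mul_div_cancel_right₀ _ hNU]
    rw [e, h]
    field_simp
  funext i
  simp only [Pi.add_apply, Pi.smul_apply, smul_eq_mul]
  apply key
  rw [dot3, dot3, cross0, cross1, cross2]
  fin_cases i
  · simp only [Fin.zero_eta, Fin.isValue, cross0]
    linear_combination ((u 0 * u 0 + u 1 * u 1 + u 2 * u 2) * n 0 -
      (n 0 * u 0 + n 1 * u 1 + n 2 * u 2) * u 0) * hna +
      ((n 0 * u 0 + n 1 * u 1 + n 2 * u 2) * a 0 -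
        (u 0 * a 0 + u 1 * a 1 + u 2 * a 2) * n 0) * hnu
  · simp only [Fin.mk_one, Fin.isValue, cross1]
    linear_combination ((u 0 * u 0 + u 1 * u 1 + u 2 * u 2) * n 1 -
      (n 0 * u 0 + n 1 * u 1 + n 2 * u 2) * u 1) * hna +
      ((n 0 * u 0 + n 1 * u 1 + n 2 * u 2) * a 1 -
        (u 0 * a 0 + u 1 * a 1 + u 2 * a 2) * n 1) * hnu
  · simp only [Fin.reduceFinMk, Fin.isValue, cross2]
    linear_combination ((u 0 * u 0 + u 1 * u 1 + u 2 * u 2) * n 2 -
      (n 0 * u 0 + n 1 * u 1 + n 2 * u 2) * u 2) * hna +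
      ((n 0 * u 0 + n 1 * u 1 + n 2 * u 2) * a 2 -
        (u 0 * a 0 + u 1 * a 1 + u 2 * a 2) * n 2) * hnu

theorem planeStmt : PlaneStmt := by
  classical
  intro D f hf x n hn A hA hA1 hA2 y hy
  obtain ⟨u, hu⟩ : A.Nonempty := Finset.card_pos.mp (by omega)
  obtain ⟨hu0, hun, -⟩ := hA1 u hu
  set P : V3 → ℝ × ℝ := fun a => ((u ⬝ᵥ a) / (u 0 * u 0 + u 1 * u 1 + u 2 * u 2),
    (crossProduct n u ⬝ᵥ a) / ((n 0 * n 0 + n 1 * n 1 + n 2 * n 2) *
        (u 0 * u 0 + u 1 * u 1 + u 2 * u 2))) with hP
  have hco : ∀ a : V3, n ⬝ᵥ a = 0 → a = (P a).1 • u + (P a).2 • crossProduct n u :=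
    fun a ha => plane_coord n u a hn hu0 hun ha
  have hdet : ∀ s ∈ A, ∀ s' ∈ A, s ≠ s' → (P s).1 * (P s').2 - (P s).2 * (P s').1 ≠ 0 := by
    intro s hs s' hs' hss h
    apply hA2 s hs s' hs' hss
    rw [hco s (hA1 s hs).2.1, hco s' (hA1 s' hs').2.1]
    set w := crossProduct n u with hw
    have : crossProduct ((P s).1 • u + (P s).2 • w) ((P s').1 • u + (P s').2 • w) =
        ((P s).1 * (P s').2 - (P s).2 * (P s').1) • crossProduct u w := by
      funext i
      fin_cases i
      · simp only [Fin.zero_eta, Fin.isValue, cross0, Pi.add_apply, Pi.smul_apply, smul_eq_mul]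
        ring
      · simp only [Fin.mk_one, Fin.isValue, cross1, Pi.add_apply, Pi.smul_apply, smul_eq_mul]
        ring
      · simp only [Fin.reduceFinMk, Fin.isValue, cross2, Pi.add_apply, Pi.smul_apply, smul_eq_mul]
        ring
    rw [this, h, zero_smul]
  have hinj : Set.InjOn P (A : Set V3) := by
    intro s hs s' hs' hss
    rw [hco s (hA1 s hs).2.1, hco s' (hA1 s' hs').2.1, hss]
  have hyx : n ⬝ᵥ (y - x) = 0 := by
    rw [dotProduct_sub, hy, sub_self]
  have key := plane_aux D f hf x u (crossProduct n u) (A.image P)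
    (by rw [Finset.card_image_of_injOn hinj]; exact hA)
    (by
      intro s hs h
      rw [Finset.mem_image] at hs
      obtain ⟨s, hs, rfl⟩ := hs
      apply (hA1 s hs).1
      rw [hco s (hA1 s hs).2.1, h]
      simp)
    (by
      intro s hs t
      rw [Finset.mem_image] at hs
      obtain ⟨s, hs, rfl⟩ := hs
      have h := (hA1 s hs).2.2 t
      rw [hco s (hA1 s hs).2.1, smul_add, smul_smul, smul_smul, ← add_assoc] at h
      exact h)
    (by
      intro s hs s' hs' hss
      rw [Finset.mem_image] at hs hs'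
      obtain ⟨s, hs, rfl⟩ := hs
      obtain ⟨s', hs', rfl⟩ := hs'
      exact hdet s hs s' hs' (fun h => hss (by rw [h])))
    (P (y - x)).1 (P (y - x)).2
  rw [add_assoc, ← hco (y - x) hyx] at key
  rwa [add_sub_cancel] at key

/-- a direction off finitely many planes through the origin -/
theorem exists_dir {α : Type} (M : Finset α) (m : α → V3) (hM : ∀ i ∈ M, m i ≠ 0) :
    ∃ d : V3, ∀ i ∈ M, m i ⬝ᵥ d ≠ 0 := by
  classical
  set Q : α → Polynomial ℝ := fun i => Polynomial.C (m i 0) + Polynomial.C (m i 1) * Polynomial.X +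
    Polynomial.C (m i 2) * Polynomial.X ^ 2 with hQ
  have hQ0 : ∀ i ∈ M, Q i ≠ 0 := by
    intro i hi h
    apply hM i hi
    have c0 := congrArg (fun p => Polynomial.coeff p 0) h
    have c1 := congrArg (fun p => Polynomial.coeff p 1) h
    have c2 := congrArg (fun p => Polynomial.coeff p 2) h
    simp only [hQ, Polynomial.coeff_add, Polynomial.coeff_C_mul, Polynomial.coeff_zero,
      Polynomial.coeff_X, Polynomial.coeff_X_pow, Polynomial.coeff_C] at c0 c1 c2
    norm_num at c0 c1 c2
    funext j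
    fin_cases j
    · exact c0
    · exact c1
    · exact c2
  have hprod : ∏ i ∈ M, Q i ≠ 0 := Finset.prod_ne_zero_iff.mpr hQ0
  obtain ⟨lam, hlam⟩ : ∃ lam : ℝ, (∏ i ∈ M, Q i).eval lam ≠ 0 := by
    by_contra hcon
    push Not at hcon
    apply hprod
    apply Polynomial.funext
    intro r
    rw [hcon r, Polynomial.eval_zero]
  refine ⟨![1, lam, lam ^ 2], ?_⟩
  intro i hi h
  apply hlam
  rw [Polynomial.eval_prod]
  apply Finset.prod_eq_zero hi
  rw [dot3] at h
  simp [hQ] at h ⊢
  linarith

theorem planesStmt : PlanesStmt := by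
  classical
  intro D f hf0 hf ι I n δ hn hI hdist
  obtain ⟨x0, hx0⟩ : ∃ x0 : V3, eval x0 f ≠ 0 := by
    by_contra hcon
    push Not at hcon
    apply hf0
    apply MvPolynomial.funext
    intro r
    rw [hcon r, map_zero]
  set a : ι → ℝ := fun i => δ i - n i ⬝ᵥ x0 with ha
  have ha0 : ∀ i ∈ I, a i ≠ 0 := by
    intro i hi h
    apply hx0
    apply hI i hi
    rw [ha] at h
    simp only at h
    linarith
  -- directions
  obtain ⟨d, hd⟩ := exists_dir ((I ×ˢ I).filter (fun ij => a ij.1 • n ij.2 - a ij.2 • n ij.1 ≠ 0)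
      ∪ (I.image (fun i => (i, i))))
    (fun ij => if ij.1 = ij.2 then n ij.1 else a ij.1 • n ij.2 - a ij.2 • n ij.1) (by
      intro ij hij
      rw [Finset.mem_union, Finset.mem_filter, Finset.mem_image] at hij
      rcases hij with hij | ⟨i, hi, rfl⟩
      · by_cases h : ij.1 = ij.2
        · simp only [h, if_true]
          rw [Finset.mem_product] at hij
          exact hn _ hij.1.2
        · simp only [h, if_false]
          exact hij.2
      · simp only [if_true]
        exact hn i hi)
  have hdn : ∀ i ∈ I, n i ⬝ᵥ d ≠ 0 := by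
    intro i hi
    have := hd (i, i) (Finset.mem_union_right _ (Finset.mem_image_of_mem _ hi))
    simpa using this
  have hdm : ∀ i ∈ I, ∀ j ∈ I, i ≠ j → (a i • n j - a j • n i) ⬝ᵥ d ≠ 0 := by
    intro i hi j hj hij
    have hne : a i • n j - a j • n i ≠ 0 := by
      intro h
      apply hdist i hi j hj hij
      intro y
      have h2 : a i * (n j ⬝ᵥ (y - x0)) = a j * (n i ⬝ᵥ (y - x0)) := by
        have := congrArg (fun v => v ⬝ᵥ (y - x0)) h
        simp only [sub_dotProduct, smul_dotProduct, zero_dotProduct, smul_eq_mul] at this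
        linarith
      rw [dotProduct_sub, dotProduct_sub] at h2
      have hai := ha0 i hi
      have haj := ha0 j hj
      have e1 : n i ⬝ᵥ y = δ i ↔ n i ⬝ᵥ y - n i ⬝ᵥ x0 = a i := by
        rw [ha]
        constructor <;> intro h' <;> simp only at * <;> linarith
      have e2 : n j ⬝ᵥ y = δ j ↔ n j ⬝ᵥ y - n j ⬝ᵥ x0 = a j := by
        rw [ha]
        constructor <;> intro h' <;> simp only at * <;> linarith
      rw [e1, e2]
      constructor
      · intro h'
        rw [h', mul_comm] at h2
        exact mul_right_cancel₀ hai h2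
      · intro h'
        rw [h', mul_comm] at h2
        exact (mul_left_cancel₀ haj h2).symm
    have := hd (i, j) (Finset.mem_union_left _ (by
      rw [Finset.mem_filter, Finset.mem_product]
      exact ⟨⟨hi, hj⟩, hne⟩))
    simpa [hij] using this
  set τ : ι → ℝ := fun i => a i / (n i ⬝ᵥ d) with hτ
  have hinj : Set.InjOn τ (I : Set ι) := by
    intro i hi j hj hij
    by_contra hne
    apply hdm i hi j hj hne
    rw [hτ] at hij
    simp only at hij
    have h1 := hdn i hi
    have h2 := hdn j hj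
    rw [div_eq_div_iff h1 h2] at hij
    rw [sub_dotProduct, smul_dotProduct, smul_dotProduct, smul_eq_mul, smul_eq_mul]
    linarith
  have hT := lineStmt D f hf x0 d ⟨0, by simpa using hx0⟩ (I.image τ) (by
    intro t ht
    rw [Finset.mem_image] at ht
    obtain ⟨i, hi, rfl⟩ := ht
    apply hI i hi
    rw [dotProduct_add, dotProduct_smul, smul_eq_mul, hτ]
    have h1 := hdn i hi
    simp only
    rw [div_mul_cancel₀ _ h1, ha]
    simp only
    ring)
  rw [Finset.card_image_of_injOn hinj] at hT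
  exact hT

end Vale.Agent.P054.PL
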