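import Vale.Agent.P054.Y.PL.Dir
import Vale.Agent.P054.Y.PL.Planes
import Vale.Agent.P054.Y.PL.Core
import Vale.Agent.P054.Y.PL.Planar

/-! Theorem PL, unconditional. -/

namespace Vale.Agent.P054.PL

theorem wall : WallStmt := wallStmt planeStmt planesStmt lineStmt dirStmt

theorem core : CoreStmt := core_of_wall wall

theorem planar : Vale.Agent.P054.R.PlanarStmt := planarStmt core

end Vale.Agent.P054.PL
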