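import Vale.Agent.P054.Y.PL.Defs

/-! Theorem PL-BIP (bipartite planar type), Cayley form: the statements. -/

namespace Vale.Agent.P054.PL

open MvPolynomial Matrix

open scoped Classical in
/-- a planar motion with at least `K` matched pairs of `S1` on a line and at least `K` matched
pairs of `S2` on another line -/
structure GoodB (S1 S2 : Finset (V3 × V3)) (K : ℕ) (p : V3 × V3) : Prop where
  lines : ∃ x1 b1 x2 b2 : V3, b1 ≠ 0 ∧ b2 ≠ 0 ∧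
    K ≤ ((Ms S1 p).filter (fun q => crossProduct (q.1 - x1) b1 = 0)).card ∧
    K ≤ ((Ms S2 p).filter (fun q => crossProduct (q.1 - x2) b2 = 0)).card ∧
    ¬ (crossProduct b1 b2 = 0 ∧ crossProduct (x2 - x1) b1 = 0)
  plane : ∃ m : V3, m ≠ 0 ∧ ∀ q ∈ Ms (S1 ∪ S2) p, ∀ q' ∈ Ms (S1 ∪ S2) p, m ⬝ᵥ (q'.1 - q.1) = 0

open scoped Classical in
/-- the wall count for one polynomial `h` -/
def WallBipStmt : Prop := ∀ (D : ℕ) (h : MvPolynomial (Fin 6) ℝ), h.totalDegree ≤ D →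
  ∀ (S1 S2 G : Finset (V3 × V3)) (B : ℕ), (∀ p ∈ G, GoodB S1 S2 (D + 3) p) →
  Fib (S1 ∪ S2) G B →
  (∀ p ∈ G, eval (pv p) h = 0 ∧ ∃ i, eval (pv p) (pderiv i h) ≠ 0) →
  G.card ≤ D * (S1.card * S2.card) + B * (D * (S1 ∪ S2).card)

open scoped Classical in
/-- the theorem in Cayley form -/
def CoreBipStmt : Prop := ∀ ε : ℝ, 0 < ε → ∃ K : ℕ, ∀ B : ℕ, ∃ C : ℝ, 0 < C ∧
  ∀ (S1 S2 G : Finset (V3 × V3)), (∀ p ∈ G, GoodB S1 S2 K p) → Fib (S1 ∪ S2) G B →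
  (G.card : ℝ) ≤ C * ((S1.card : ℝ) * (S2.card : ℝ)) ^ (1 + ε)

end Vale.Agent.P054.PL
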