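import Vale.Agent.P054.Y.PL.Wall
import Vale.Agent.P054.Y.PL.BipDefs

/-! Theorem PL-BIP: the wall count. -/

namespace Vale.Agent.P054.PL

open MvPolynomial Matrix

theorem sv_swap (q q' : V3 × V3) : sv q' q = - sv q q' := by
  unfold sv
  apply v3_ext <;> simp <;> ring

/-- on the line `L_q ∩ L_q'` the two parametrisations agree -/
theorem wq_line {p q q' : V3 × V3} (h : Mt p q) (h' : Mt p q') (t : ℝ) :
    wq q (p.1 + t • sv q q') = wq q' (p.1 + t • sv q q') := by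
  have e := h.sub h'
  unfold wq
  unfold sv
  rw [cr] at e
  have e0 := congrFun e 0
  have e1 := congrFun e 1
  have e2 := congrFun e 2
  simp at e0 e1 e2
  simp only [cr]
  apply v3_ext <;> simp
  · linear_combination (-1 : ℝ) * e0
  · linear_combination (-1 : ℝ) * e1
  · linear_combination (-1 : ℝ) * e2

theorem eval_swap (h : MvPolynomial (Fin 6) ℝ) {p q q' : V3 × V3} (hm : Mt p q) (hm' : Mt p q')
    (t : ℝ) : eval (p.1 + t • sv q' q) (hq h q') = eval (p.1 + (-t) • sv q q') (hq h q) := by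
  have e1 : p.1 + t • sv q' q = p.1 + (-t) • sv q q' := by
    rw [sv_swap q q', smul_neg, neg_smul]
  rw [e1, eval_hq, eval_hq, wq_line hm hm']

/-- a point on the line of two points of a line -/
theorem off_line {x b a1 a2 c : V3} (hb : b ≠ 0) (h1 : crossProduct (a1 - x) b = 0)
    (h2 : crossProduct (a2 - x) b = 0) (hne : a1 ≠ a2)
    (h : crossProduct (a2 - a1) (c - a1) = 0) : crossProduct (c - x) b = 0 := by
  have k1 := par_of_cross h1 hb
  have k2 := par_of_cross h2 hb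
  set α := ((a1 - x) ⬝ᵥ b) / (b ⬝ᵥ b)
  set β := ((a2 - x) ⬝ᵥ b) / (b ⬝ᵥ b)
  have k3 : a2 - a1 = (β - α) • b := by
    have : a2 - a1 = (a2 - x) - (a1 - x) := by abel
    rw [this, k1, k2, sub_smul]
  have hαβ : β - α ≠ 0 := by
    intro hc
    rw [hc, zero_smul] at k3
    exact hne (sub_eq_zero.1 k3).symm
  rw [k3, map_smul, LinearMap.smul_apply] at h
  have k4 : crossProduct b (c - a1) = 0 := (smul_eq_zero.1 h).resolve_left hαβ
  have k5 : c - x = (c - a1) + α • b := by rw [← k1]; abel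
  rw [k5, map_add, LinearMap.add_apply, map_smul, LinearMap.smul_apply, cross_self, smul_zero,
    add_zero, ← cross_anticomm, k4, neg_zero]

theorem cross_cyc (a1 a2 c : V3) :
    crossProduct (a1 - c) (a2 - c) = crossProduct (a2 - a1) (c - a1) := by
  rw [cr, cr]
  apply v3_ext <;> simp <;> ring

/-- two different common points of two lines -/
theorem lines_eq {x1 b1 x2 b2 a a' : V3} (h1 : b1 ≠ 0) (h2 : b2 ≠ 0)
    (k1 : crossProduct (a - x1) b1 = 0) (k1' : crossProduct (a' - x1) b1 = 0)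
    (k2 : crossProduct (a - x2) b2 = 0) (k2' : crossProduct (a' - x2) b2 = 0) (hne : a ≠ a') :
    crossProduct b1 b2 = 0 ∧ crossProduct (x2 - x1) b1 = 0 := by
  have hx2 : crossProduct (x2 - x1) b1 = 0 := by
    refine off_line h1 k1 k1' hne ?_
    have e1 := par_of_cross k2 h2
    have e2 := par_of_cross k2' h2
    have e3 : a' - a = (a' - x2) - (a - x2) := by abel
    have e4 : x2 - a = - (a - x2) := by abel
    rw [e3, e4, e1, e2, ← sub_smul, map_smul, LinearMap.smul_apply, map_neg, map_smul, cross_self]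
    simp
  refine ⟨?_, hx2⟩
  -- `b2` is a direction
  have e1 := par_of_cross k1 h1
  have e2 := par_of_cross k1' h1
  have e3 := par_of_cross k2 h2
  have e4 := par_of_cross k2' h2
  set α := ((a - x1) ⬝ᵥ b1) / (b1 ⬝ᵥ b1)
  set α' := ((a' - x1) ⬝ᵥ b1) / (b1 ⬝ᵥ b1)
  set β := ((a - x2) ⬝ᵥ b2) / (b2 ⬝ᵥ b2)
  set β' := ((a' - x2) ⬝ᵥ b2) / (b2 ⬝ᵥ b2)
  have e5 : (α' - α) • b1 = (β' - β) • b2 := by
    rw [sub_smul, sub_smul, ← e1, ← e2, ← e3, ← e4]; abel
  have e6 : α' - α ≠ 0 := by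
    intro hc
    have : a' - a = (a' - x1) - (a - x1) := by abel
    rw [e1, e2, ← sub_smul, hc, zero_smul] at this
    exact hne (sub_eq_zero.1 this).symm
  have e7 : (α' - α) • crossProduct b1 b2 = 0 := by
    rw [← LinearMap.smul_apply, ← map_smul, e5, map_smul, LinearMap.smul_apply, cross_self,
      smul_zero]
  exact (smul_eq_zero.1 e7).resolve_left e6

/-- (a) transversal mixed lines -/
theorem bipA (hLi : LineStmt) {D : ℕ} {h : MvPolynomial (Fin 6) ℝ} (hD : h.totalDegree ≤ D)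
    (S1 S2 G : Finset (V3 × V3)) (hG : ∀ p ∈ G, eval (pv p) h = 0)
    (hA : ∀ p ∈ G, ∃ q ∈ Ms S1 p, ∃ q' ∈ Ms S2 p, q.1 ≠ q'.1 ∧
      ∃ t : ℝ, eval (p.1 + t • sv q q') (hq h q) ≠ 0) :
    G.card ≤ D * (S1.card * S2.card) := by
  classical
  choose! q hqS q' hq'S hne ht using hA
  have h1 : G.card ≤ D * (G.image (fun p => (q p, q' p))).card := by
    refine Finset.card_le_mul_card_image G D ?_
    intro a ha
    obtain ⟨p0, hp0, rfl⟩ := Finset.mem_image.1 ha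
    set F := G.filter (fun p => (q p, q' p) = (q p0, q' p0)) with hF
    have hFm : ∀ p ∈ F, p ∈ G ∧ Mt p (q p0) ∧ Mt p (q' p0) := by
      intro p hp
      rw [hF, Finset.mem_filter] at hp
      obtain ⟨hpG, he⟩ := hp
      have e1 : q p = q p0 := congrArg Prod.fst he
      have e2 : q' p = q' p0 := congrArg Prod.snd he
      refine ⟨hpG, ?_, ?_⟩
      · rw [← e1]; exact (mem_Ms.1 (hqS p hpG)).2
      · rw [← e2]; exact (mem_Ms.1 (hq'S p hpG)).2
    have hex : ∀ p ∈ F, ∃ t : ℝ, p.1 = p0.1 + t • sv (q p0) (q' p0) := fun p hp =>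
      line_param (hFm p hp).2.1 (hFm p hp).2.2 (mem_Ms.1 (hqS p0 hp0)).2
        (mem_Ms.1 (hq'S p0 hp0)).2 (hne p0 hp0)
    choose! t htp using hex
    have hinj : Set.InjOn t F := by
      intro p hp p' hp' he
      refine ext_of_mt (hFm p hp).2.1 (hFm p' hp').2.1 ?_
      rw [htp p hp, htp p' hp', he]
    rw [← Finset.card_image_of_injOn hinj]
    refine hLi D (hq h (q p0)) ((totalDegree_hq h _).trans hD) p0.1 (sv (q p0) (q' p0))
      (ht p0 hp0) _ ?_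
    intro r hr
    obtain ⟨p, hp, rfl⟩ := Finset.mem_image.1 hr
    rw [← htp p hp, eval_hq_mt h (hFm p hp).2.1]
    exact hG p (hFm p hp).1
  have h2 : (G.image (fun p => (q p, q' p))).card ≤ S1.card * S2.card := by
    have h3 : G.image (fun p => (q p, q' p)) ⊆ S1 ×ˢ S2 := by
      intro a ha
      obtain ⟨p, hp, rfl⟩ := Finset.mem_image.1 ha
      exact Finset.mem_product.2 ⟨(mem_Ms.1 (hqS p hp)).1, (mem_Ms.1 (hq'S p hp)).1⟩
    refine (Finset.card_le_card h3).trans ?_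
    rw [Finset.card_product]
  exact h1.trans (Nat.mul_le_mul_left _ h2)

/-- a pair which sees many points of a line along lines in `Z(h)` -/
theorem bip_plane (hPl : PlaneStmt) {D : ℕ} {h : MvPolynomial (Fin 6) ℝ}
    (hD : h.totalDegree ≤ D) (S : Finset (V3 × V3)) (p : V3 × V3) (m : V3) (hm : m ≠ 0)
    (hmp : ∀ q ∈ Ms S p, ∀ q' ∈ Ms S p, m ⬝ᵥ (q'.1 - q.1) = 0) (q : V3 × V3) (hqM : q ∈ Ms S p)
    (A : Finset (V3 × V3)) (hA : A ⊆ Ms S p) (hc : D < A.card) (x b : V3) (hb : b ≠ 0)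
    (hline : ∀ q' ∈ A, crossProduct (q'.1 - x) b = 0) (hoff : crossProduct (q.1 - x) b ≠ 0)
    (hz : ∀ q' ∈ A, ∀ t : ℝ, eval (p.1 + t • sv q q') (hq h q) = 0) :
    ∃ n : V3, n ≠ 0 ∧ (∀ q' ∈ Ms S p, n ⬝ᵥ sv q q' = 0) ∧
      ∀ y : V3, n ⬝ᵥ y = n ⬝ᵥ p.1 → eval y (hq h q) = 0 := by
  classical
  have hMt : ∀ q ∈ Ms S p, Mt p q := fun q hq => (mem_Ms.1 hq).2
  refine ⟨m + crossProduct p.1 m, nrm_ne _ hm, ?_, ?_⟩
  · intro q' hq'
    exact nrm_dot (two_u (hMt q hqM) (hMt q' hq')) (hmp q hqM q' hq')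
  · have hcross : ∀ q1 ∈ A, ∀ q2 ∈ A, q1 ≠ q2 → crossProduct (sv q q1) (sv q q2) ≠ 0 := by
      intro q1 h1 q2 h2 hne hc
      have h12 : q1.1 ≠ q2.1 := fun he => hne ((hMt q1 (hA h1)).snd_eq (hMt q2 (hA h2)) he)
      have h3 := cross_u (two_u (hMt q hqM) (hMt q1 (hA h1)))
        (two_u (hMt q hqM) (hMt q2 (hA h2))) hc
      rw [cross_cyc] at h3
      exact hoff (off_line hb (hline q1 h1) (hline q2 h2) h12 h3)
    have hinj2 : Set.InjOn (sv q) (A : Set (V3 × V3)) := by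
      intro q1 h1 q2 h2 he
      by_contra hne
      apply hcross q1 h1 q2 h2 hne
      rw [he]
      exact cross_self _
    refine hPl D (hq h q) ((totalDegree_hq h _).trans hD) p.1 _ (nrm_ne p.1 hm) (A.image (sv q))
      ?_ ?_ ?_
    · rw [Finset.card_image_of_injOn hinj2]; exact hc
    · intro s hs
      obtain ⟨q', hq', rfl⟩ := Finset.mem_image.1 hs
      have hne : q.1 ≠ q'.1 := fun he => hoff (by rw [he]; exact hline q' hq')
      exact ⟨sv_ne (hMt q hqM) (hMt q' (hA hq')) hne,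
        nrm_dot (two_u (hMt q hqM) (hMt q' (hA hq'))) (hmp q hqM q' (hA hq')),
        hz q' hq'⟩
    · intro s hs s' hs' hne
      obtain ⟨q1, hq1, rfl⟩ := Finset.mem_image.1 hs
      obtain ⟨q2, hq2, rfl⟩ := Finset.mem_image.1 hs'
      exact hcross q1 hq1 q2 hq2 (fun he => hne (by rw [he]))

open scoped Classical in
theorem card_inter_lines (p : V3 × V3) {x1 b1 x2 b2 : V3} (h1 : b1 ≠ 0)
    (h2 : b2 ≠ 0) (hne : ¬ (crossProduct b1 b2 = 0 ∧ crossProduct (x2 - x1) b1 = 0))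
    (T : Finset (V3 × V3)) (hT : ∀ q ∈ T, Mt p q) :
    (T.filter (fun q => crossProduct (q.1 - x1) b1 = 0 ∧ crossProduct (q.1 - x2) b2 = 0)).card
      ≤ 1 := by
  rw [Finset.card_le_one]
  intro q hq q' hq'
  rw [Finset.mem_filter] at hq hq'
  by_contra hc
  have h12 : q.1 ≠ q'.1 := fun he => hc ((hT q hq.1).snd_eq (hT q' hq'.1) he)
  exact hne (lines_eq h1 h2 hq.2.1 hq'.2.1 hq.2.2 hq'.2.2 h12)

/-- (b) one motion all of whose mixed edge lines are in `Z(h)` -/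
theorem bipB_point (hPl : PlaneStmt) {D : ℕ} {h : MvPolynomial (Fin 6) ℝ}
    (hD : h.totalDegree ≤ D) (S1 S2 : Finset (V3 × V3)) (p : V3 × V3)
    (hp : GoodB S1 S2 (D + 3) p) (hg : ∃ i, eval (pv p) (pderiv i h) ≠ 0)
    (hB : ∀ q ∈ Ms S1 p, ∀ q' ∈ Ms S2 p, q.1 ≠ q'.1 →
      ∀ t : ℝ, eval (p.1 + t • sv q q') (hq h q) = 0) :
    open scoped Classical in
    ∃ q ∈ Ms (S1 ∪ S2) p, hq h q ≠ 0 ∧ ∃ n : V3, n ≠ 0 ∧
      (∀ q' ∈ Ms (S1 ∪ S2) p, n ⬝ᵥ sv q q' = 0) ∧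
      ∀ y : V3, n ⬝ᵥ y = n ⬝ᵥ p.1 → eval y (hq h q) = 0 := by
  classical
  obtain ⟨x1, b1, x2, b2, hb1, hb2, hc1, hc2, hne⟩ := hp.lines
  obtain ⟨m, hm, hmp⟩ := hp.plane
  set T1 := (Ms S1 p).filter (fun q => crossProduct (q.1 - x1) b1 = 0) with hT1
  set T2 := (Ms S2 p).filter (fun q => crossProduct (q.1 - x2) b2 = 0) with hT2
  have hM1 : Ms S1 p ⊆ Ms (S1 ∪ S2) p := fun q hq => by
    rw [mem_Ms] at hq ⊢
    exact ⟨Finset.mem_union_left _ hq.1, hq.2⟩
  have hM2 : Ms S2 p ⊆ Ms (S1 ∪ S2) p := fun q hq => by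
    rw [mem_Ms] at hq ⊢
    exact ⟨Finset.mem_union_right _ hq.1, hq.2⟩
  have hT1s : T1 ⊆ Ms S1 p := Finset.filter_subset _ _
  have hT2s : T2 ⊆ Ms S2 p := Finset.filter_subset _ _
  have hT1m : ∀ q ∈ T1, Mt p q := fun q hq => (mem_Ms.1 (hT1s hq)).2
  have hT2m : ∀ q ∈ T2, Mt p q := fun q hq => (mem_Ms.1 (hT2s hq)).2
  by_cases hI : ∃ q ∈ T1, crossProduct (q.1 - x2) b2 ≠ 0 ∧ hq h q ≠ 0
  · obtain ⟨q, hqT, hoff, hq0⟩ := hI
    refine ⟨q, hM1 (hT1s hqT), hq0, ?_⟩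
    refine bip_plane hPl hD (S1 ∪ S2) p m hm hmp q (hM1 (hT1s hqT)) T2 (hT2s.trans hM2)
      (by omega) x2 b2 hb2 (fun q' hq' => (Finset.mem_filter.1 hq').2) hoff ?_
    intro q' hq' t
    refine hB q (hT1s hqT) q' (hT2s hq') ?_ t
    intro he
    exact hoff (by rw [he]; exact (Finset.mem_filter.1 hq').2)
  by_cases hII : ∃ q ∈ T2, crossProduct (q.1 - x1) b1 ≠ 0 ∧ hq h q ≠ 0
  · obtain ⟨q, hqT, hoff, hq0⟩ := hII
    refine ⟨q, hM2 (hT2s hqT), hq0, ?_⟩
    refine bip_plane hPl hD (S1 ∪ S2) p m hm hmp q (hM2 (hT2s hqT)) T1 (hT1s.trans hM1)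
      (by omega) x1 b1 hb1 (fun q' hq' => (Finset.mem_filter.1 hq').2) hoff ?_
    intro q' hq' t
    rw [eval_swap h (hT1m q' hq') (hT2m q hqT)]
    refine hB q' (hT1s hq') q (hT2s hqT) ?_ (-t)
    intro he
    exact hoff (by rw [← he]; exact (Finset.mem_filter.1 hq').2)
  exfalso
  push Not at hI hII
  have hA1 : 1 < (T1.filter (fun q => ¬ crossProduct (q.1 - x2) b2 = 0)).card := by
    have h1 := Finset.card_filter_add_card_filter_not (s := T1)
      (fun q => crossProduct (q.1 - x2) b2 = 0)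
    have h2 : (T1.filter (fun q => crossProduct (q.1 - x2) b2 = 0)).card ≤ 1 := by
      refine (Finset.card_le_card ?_).trans (card_inter_lines p hb1 hb2 hne T1 hT1m)
      intro q hq
      rw [Finset.mem_filter] at hq ⊢
      exact ⟨hq.1, (Finset.mem_filter.1 hq.1).2, hq.2⟩
    omega
  have hA2 : 0 < (T2.filter (fun q => ¬ crossProduct (q.1 - x1) b1 = 0)).card := by
    have h1 := Finset.card_filter_add_card_filter_not (s := T2)
      (fun q => crossProduct (q.1 - x1) b1 = 0)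
    have h2 : (T2.filter (fun q => crossProduct (q.1 - x1) b1 = 0)).card ≤ 1 := by
      refine (Finset.card_le_card ?_).trans (card_inter_lines p hb1 hb2 hne T2 hT2m)
      intro q hq
      rw [Finset.mem_filter] at hq ⊢
      exact ⟨hq.1, hq.2, (Finset.mem_filter.1 hq.1).2⟩
    omega
  obtain ⟨q1, hq1, q2, hq2, h12⟩ := Finset.one_lt_card.1 hA1
  obtain ⟨q3, hq3⟩ := Finset.card_pos.1 hA2
  rw [Finset.mem_filter] at hq1 hq2 hq3
  have z1 := hI q1 hq1.1 hq1.2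
  have z2 := hI q2 hq2.1 hq2.2
  have z3 := hII q3 hq3.1 hq3.2
  have h4 := collinear_of_flats h hg (hT1m q1 hq1.1) (hT1m q2 hq2.1) (hT2m q3 hq3.1) z1 z2 z3
  have h12' : q1.1 ≠ q2.1 := fun he => h12 ((hT1m q1 hq1.1).snd_eq (hT1m q2 hq2.1) he)
  exact hq3.2 (off_line hb1 (Finset.mem_filter.1 hq1.1).2 (Finset.mem_filter.1 hq2.1).2 h12' h4)

theorem wallBipStmt (hPl : PlaneStmt) (hPs : PlanesStmt) (hLi : LineStmt) : WallBipStmt := by
  classical
  intro D h hD S1 S2 G B hGood hF hwall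
  let Q : V3 × V3 → Prop := fun p => ∃ q ∈ Ms S1 p, ∃ q' ∈ Ms S2 p, q.1 ≠ q'.1 ∧
      ∃ t : ℝ, eval (p.1 + t • sv q q') (hq h q) ≠ 0
  have h1 : (G.filter Q).card ≤ D * (S1.card * S2.card) :=
    bipA hLi hD S1 S2 _ (fun p hp => (hwall p (Finset.mem_filter.1 hp).1).1)
      (fun p hp => (Finset.mem_filter.1 hp).2)
  have h2 : (G.filter (fun p => ¬ Q p)).card ≤ B * (D * (S1 ∪ S2).card) := by
    refine caseB hPs hD (S1 ∪ S2) _ B (hF.mono (Finset.filter_subset _ _)) ?_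
    intro p hp
    rw [Finset.mem_filter] at hp
    have h3 := bipB_point hPl hD S1 S2 p (hGood p hp.1) (hwall p hp.1).2 (by
      intro q hqM q' hq'M hne t
      by_contra hc
      exact hp.2 ⟨q, hqM, q', hq'M, hne, t, hc⟩)
    convert h3
  rw [← Finset.card_filter_add_card_filter_not (s := G) Q]
  convert Nat.add_le_add h1 h2

end Vale.Agent.P054.PL
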