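import Vale.Agent.P054.Y.PL.Core
import Vale.Agent.P054.Y.PL.BipWall
import Vale.Agent.P054.Y.PL.Planes

/-! Theorem PL-BIP: polynomial partitioning of `ℝ⁶`, both sets of pairs shrink. -/

namespace Vale.Agent.P054.PL

open MvPolynomial Finset

open scoped Classical in
theorem Sc_union {ι : Type} (f : ι → MvPolynomial (Fin 6) ℝ) (S1 S2 : Finset (V3 × V3))
    (σ : ι → Bool) : Sc f S1 σ ∪ Sc f S2 σ = Sc f (S1 ∪ S2) σ := by
  unfold Sc
  rw [filter_union]

open scoped Classical in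
theorem GoodB_congr {S1 S2 S1' S2' : Finset (V3 × V3)} {K : ℕ} {p : V3 × V3}
    (h1 : Ms S1' p = Ms S1 p) (h2 : Ms S2' p = Ms S2 p)
    (h : Ms (S1' ∪ S2') p = Ms (S1 ∪ S2) p) (hg : GoodB S1 S2 K p) : GoodB S1' S2' K p := by
  refine ⟨?_, ?_⟩
  · rw [h1, h2]; exact hg.lines
  · rw [h]; exact hg.plane

open scoped Classical in
theorem wall_total_bip (hW : WallBipStmt) (m D : ℕ) (f : Fin (6 * m) → MvPolynomial (Fin 6) ℝ)
    (hf0 : ∀ j, f j ≠ 0) (hfD : ∀ j, (f j).totalDegree ≤ D) (S1 S2 G : Finset (V3 × V3)) (B : ℕ)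
    (hG : ∀ p ∈ G, GoodB S1 S2 (D + 3) p) (hF : Fib (S1 ∪ S2) G B)
    (hw : ∀ p ∈ G, ∃ j, eval (pv p) (f j) = 0) :
    #G ≤ (6 * m * 7 ^ D) * (D * (#S1 * #S2) + B * (D * #(S1 ∪ S2))) := by
  set H : Finset (MvPolynomial (Fin 6) ℝ) := univ.biUnion fun j => ders D (f j) with hH
  have hHc : #H ≤ 6 * m * 7 ^ D := by
    refine card_biUnion_le.trans ((sum_le_sum fun j _ => card_ders_le D (f j)).trans ?_)
    simp
  have hsub : G ⊆ H.biUnion fun h =>
      G.filter fun p => eval (pv p) h = 0 ∧ ∃ i, eval (pv p) (pderiv i h) ≠ 0 := by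
    intro p hp
    obtain ⟨j, hj⟩ := hw p hp
    obtain ⟨h, hh, h1, h2⟩ := exists_mem_ders (pv p) D (f j) (hf0 j) (hfD j) hj
    exact mem_biUnion.mpr ⟨h, mem_biUnion.mpr ⟨j, mem_univ j, hh⟩,
      mem_filter.mpr ⟨hp, h1, h2⟩⟩
  calc #G ≤ #(H.biUnion fun h =>
        G.filter fun p => eval (pv p) h = 0 ∧ ∃ i, eval (pv p) (pderiv i h) ≠ 0) :=
        card_le_card hsub
    _ ≤ ∑ h ∈ H, #(G.filter fun p => eval (pv p) h = 0 ∧ ∃ i, eval (pv p) (pderiv i h) ≠ 0) :=
        card_biUnion_le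
    _ ≤ ∑ _h ∈ H, (D * (#S1 * #S2) + B * (D * #(S1 ∪ S2))) := by
        refine sum_le_sum fun h hh => ?_
        obtain ⟨j, _, hj⟩ := mem_biUnion.mp hh
        exact hW D h (totalDegree_of_mem_ders D D (f j) (hfD j) h hj) S1 S2 _ B
          (fun p hp => hG p (mem_filter.mp hp).1) (Fib_subset (filter_subset _ _) hF)
          (fun p hp => (mem_filter.mp hp).2)
    _ = #H * (D * (#S1 * #S2) + B * (D * #(S1 ∪ S2))) := by rw [sum_const, smul_eq_mul]
    _ ≤ _ := Nat.mul_le_mul_right _ hHc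

open scoped Classical in
theorem exists_cell_bip {ι : Type} [Fintype ι] (f : ι → MvPolynomial (Fin 6) ℝ) (D : ℕ)
    (hD : ∑ j, (f j).totalDegree ≤ D) (S1 S2 G : Finset (V3 × V3))
    (G' : Finset (V3 × V3)) (hG' : ∀ p, p ∈ G' ↔ p ∈ G ∧ ∀ j, eval (pv p) (f j) ≠ 0)
    (hne : G'.Nonempty) :
    ∃ σ : ι → Bool, 0 < #(G.filter fun p => InCell f σ (pv p)) ∧
      (#(Sc f S1 σ) * #S2 + #(Sc f S2 σ) * #S1) * #G' ≤
        2 * ((2 * D + 1) ^ 3 * (#S1 * #S2)) * #(G.filter fun p => InCell f σ (pv p)) := by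
  let sg : V3 × V3 → (ι → Bool) := fun p j => decide (0 < eval (pv p) (f j))
  have hcell : ∀ σ, (G'.filter fun p => sg p = σ) = G.filter fun p => InCell f σ (pv p) := by
    intro σ
    ext p
    rw [mem_filter, mem_filter, hG']
    constructor
    · rintro ⟨⟨h1, h2⟩, rfl⟩
      exact ⟨h1, fun j => ⟨h2 j, by simp [sg]⟩⟩
    · rintro ⟨h1, h2⟩
      refine ⟨⟨h1, fun j => (h2 j).1⟩, ?_⟩
      funext j
      have := (h2 j).2
      simp only [sg]
      rw [Bool.eq_iff_iff, decide_eq_true_iff]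
      exact this.symm
  have hsum : ∑ σ ∈ G'.image sg, #(G.filter fun p => InCell f σ (pv p)) = #G' := by
    rw [card_eq_sum_card_image sg G']
    exact sum_congr rfl fun σ _ => by rw [hcell]
  have hle : ∑ σ ∈ G'.image sg, (#(Sc f S1 σ) * #S2 + #(Sc f S2 σ) * #S1) * #G' ≤
      ∑ σ ∈ G'.image sg, 2 * ((2 * D + 1) ^ 3 * (#S1 * #S2)) *
        #(G.filter fun p => InCell f σ (pv p)) := by
    rw [← sum_mul, ← mul_sum, hsum]
    refine Nat.mul_le_mul_right _ ?_
    rw [sum_add_distrib, ← sum_mul, ← sum_mul]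
    have h1 := (sum_le_sum_of_subset (f := fun σ => #(Sc f S1 σ))
      (subset_univ (G'.image sg))).trans (sum_Sc_le f D hD S1)
    have h2 := (sum_le_sum_of_subset (f := fun σ => #(Sc f S2 σ))
      (subset_univ (G'.image sg))).trans (sum_Sc_le f D hD S2)
    calc (∑ σ ∈ G'.image sg, #(Sc f S1 σ)) * #S2 + (∑ σ ∈ G'.image sg, #(Sc f S2 σ)) * #S1
        ≤ ((2 * D + 1) ^ 3 * #S1) * #S2 + ((2 * D + 1) ^ 3 * #S2) * #S1 :=
          Nat.add_le_add (Nat.mul_le_mul_right _ h1) (Nat.mul_le_mul_right _ h2)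
      _ = 2 * ((2 * D + 1) ^ 3 * (#S1 * #S2)) := by ring
  obtain ⟨σ, hσ, h1⟩ := exists_le_of_sum_le (hne.image sg) hle
  refine ⟨σ, ?_, h1⟩
  obtain ⟨p, hp, hpσ⟩ := mem_image.mp hσ
  refine card_pos.mpr ⟨p, ?_⟩
  rw [← hcell]
  exact mem_filter.mpr ⟨hp, hpσ⟩

/-- arithmetic-geometric mean -/
theorem am_gm_aux (a b s t g g' B : ℝ) (ha : 0 ≤ a) (hb : 0 ≤ b) (hs : 0 < s) (ht : 0 < t)
    (hg' : 0 ≤ g')
    (h : (a * t + b * s) * g' ≤ 2 * (B * (s * t)) * g) :
    Real.sqrt (a * b) * g' ≤ B * Real.sqrt (s * t) * g := by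
  have hst : 0 < s * t := mul_pos hs ht
  have h1 : 2 * (Real.sqrt (a * b) * Real.sqrt (s * t)) ≤ a * t + b * s := by
    have h2 : Real.sqrt (a * b) * Real.sqrt (s * t) = Real.sqrt (a * t) * Real.sqrt (b * s) := by
      rw [← Real.sqrt_mul (mul_nonneg ha hb), ← Real.sqrt_mul (mul_nonneg ha ht.le)]
      congr 1
      ring
    rw [h2]
    nlinarith [sq_nonneg (Real.sqrt (a * t) - Real.sqrt (b * s)),
      Real.sq_sqrt (mul_nonneg ha ht.le), Real.sq_sqrt (mul_nonneg hb hs.le)]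
  have h3 : 0 < Real.sqrt (s * t) := Real.sqrt_pos.mpr hst
  have h4 : Real.sqrt (s * t) * Real.sqrt (s * t) = s * t := Real.mul_self_sqrt hst.le
  have h5 : Real.sqrt (s * t) * (Real.sqrt (a * b) * g') ≤
      Real.sqrt (s * t) * (B * Real.sqrt (s * t) * g) := by
    have h6 := mul_le_mul_of_nonneg_right h1 hg'
    have h7 : Real.sqrt (s * t) * (B * Real.sqrt (s * t) * g) = B * (s * t) * g := by
      calc Real.sqrt (s * t) * (B * Real.sqrt (s * t) * g)
          = B * (Real.sqrt (s * t) * Real.sqrt (s * t)) * g := by ring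
        _ = B * (s * t) * g := by rw [h4]
    rw [h7]
    linarith
  exact le_of_mul_le_mul_left h5 h3

theorem sqrt_rpow_aux (x e : ℝ) (hx : 0 ≤ x) :
    Real.sqrt x ^ (2 + 2 * e) = x ^ (1 + e) := by
  rw [Real.sqrt_eq_rpow, ← Real.rpow_mul hx]
  congr 1
  ring

open scoped Classical in
theorem coreBip_of_wall (hW : WallBipStmt) : CoreBipStmt := by
  intro ε hε
  obtain ⟨m, hm1, hm⟩ := exists_m (2 * ε) (by positivity)
  set D : ℕ := 72 * 2 ^ m with hD
  refine ⟨D + 3, fun B => ?_⟩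
  set C : ℝ := 2 * ((6 * m * 7 ^ D : ℕ) : ℝ) * (D * (1 + 2 * B)) + 1 with hC
  have hC0 : 0 < C := by positivity
  refine ⟨C, hC0, ?_⟩
  have main : ∀ (n : ℕ) (S1 S2 G : Finset (V3 × V3)), #G ≤ n →
      (∀ p ∈ G, GoodB S1 S2 (D + 3) p) →
      Fib (S1 ∪ S2) G B → (#G : ℝ) ≤ C * ((#S1 : ℝ) * (#S2 : ℝ)) ^ (1 + ε) := by
    intro n
    induction n using Nat.strong_induction_on with
    | _ n ih =>
      intro S1 S2 G hn hGood hF
      rcases G.eq_empty_or_nonempty with h0 | hGne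
      · rw [h0, card_empty, Nat.cast_zero]
        positivity
      have hS : 1 ≤ #S1 ∧ 1 ≤ #S2 := by
        obtain ⟨p, hp⟩ := hGne
        obtain ⟨x1, b1, x2, b2, _, _, h1, h2, _⟩ := (hGood p hp).lines
        have h3 : #((Ms S1 p).filter fun q => crossProduct (q.1 - x1) b1 = 0) ≤ #S1 :=
          card_le_card ((filter_subset _ _).trans (filter_subset _ _))
        have h4 : #((Ms S2 p).filter fun q => crossProduct (q.1 - x2) b2 = 0) ≤ #S2 :=
          card_le_card ((filter_subset _ _).trans (filter_subset _ _))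
        omega
      obtain ⟨hS1, hS2⟩ := hS
      obtain ⟨f, hf0, hdeg, hcell⟩ := cell_partition6 m G
      set G' := G.filter fun p => ∀ j, eval (pv p) (f j) ≠ 0 with hG'
      set Wl := G.filter fun p => ¬ ∀ j, eval (pv p) (f j) ≠ 0 with hWl
      have hsplit : #G' + #Wl = #G := card_filter_add_card_filter_not _
      by_cases hA : #G ≤ 2 * #G'
      · have hGpos := card_pos.mpr hGne
        have hG'ne : G'.Nonempty := card_pos.mp (by omega)
        obtain ⟨σ, hσ1, hσ2⟩ := exists_cell_bip f D hdeg S1 S2 G G'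
          (fun p => by rw [hG', mem_filter]) hG'ne
        set Gs := G.filter fun p => InCell f σ (pv p) with hGs
        have h3 : 2 ^ (6 * m) * #Gs ≤ #G := hcell σ
        have hlt : #Gs < n := by
          have h4 : 2 ^ 1 ≤ 2 ^ (6 * m) := Nat.pow_le_pow_right (by norm_num) (by omega)
          have h5 : 2 * #Gs ≤ 2 ^ (6 * m) * #Gs := Nat.mul_le_mul_right _ h4
          omega
        have hMs : ∀ S : Finset (V3 × V3), ∀ p ∈ Gs, Ms (Sc f S σ) p = Ms S p := fun S p hp =>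
          Ms_Sc f S σ p (mem_filter.mp hp).2
        have hMsU : ∀ p ∈ Gs, Ms (Sc f S1 σ ∪ Sc f S2 σ) p = Ms (S1 ∪ S2) p := fun p hp => by
          rw [Sc_union]; exact hMs _ p hp
        have hih := ih (#Gs) hlt (Sc f S1 σ) (Sc f S2 σ) Gs le_rfl
          (fun p hp => GoodB_congr (hMs S1 p hp) (hMs S2 p hp) (hMsU p hp)
            (hGood p (mem_filter.mp hp).1))
          (fun q0 hq0 nn hnn δ => by
            have hq0' : q0 ∈ S1 ∪ S2 := by
              rw [Sc_union] at hq0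
              exact (mem_filter.mp hq0).1
            refine (card_le_card ?_).trans (hF q0 hq0' nn hnn δ)
            intro p hp
            obtain ⟨h6, h7⟩ := mem_filter.mp hp
            rw [hMsU p h6] at h7
            exact mem_filter.mpr ⟨(mem_filter.mp h6).1, h7⟩)
        have hih' : (#Gs : ℝ) ≤
            C * Real.sqrt ((#(Sc f S1 σ) : ℝ) * (#(Sc f S2 σ) : ℝ)) ^ (2 + 2 * ε) := by
          rw [sqrt_rpow_aux _ _ (by positivity)]
          exact hih
        have hfin := power_step (2 * ε) C (#G) (#G') (#Gs)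
          (Real.sqrt ((#(Sc f S1 σ) : ℝ) * (#(Sc f S2 σ) : ℝ)))
          (Real.sqrt ((#S1 : ℝ) * (#S2 : ℝ)))
          (((2 * D + 1 : ℕ) : ℝ) ^ 3) ((2 : ℝ) ^ (6 * m)) (by positivity) hC0
          (by exact_mod_cast hσ1)
          (by positivity) (by positivity) (by positivity) (by positivity) (by positivity)
          hih' ?_ (by exact_mod_cast h3) (by exact_mod_cast hA) hm
        · rwa [sqrt_rpow_aux _ _ (by positivity)] at hfin
        · refine am_gm_aux _ _ _ _ _ _ _ (by positivity) (by positivity)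
            (by exact_mod_cast hS1) (by exact_mod_cast hS2) (by positivity) ?_
          exact_mod_cast hσ2
      · have hB : #G ≤ 2 * #Wl := by omega
        have hfD : ∀ j, (f j).totalDegree ≤ D := fun j =>
          (single_le_sum (f := fun j => (f j).totalDegree) (fun _ _ => Nat.zero_le _)
            (mem_univ j)).trans hdeg
        have h1 := wall_total_bip hW m D f hf0 hfD S1 S2 Wl B
          (fun p hp => hGood p (mem_filter.mp hp).1) (Fib_subset (filter_subset _ _) hF)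
          (fun p hp => by
            have := (mem_filter.mp hp).2
            push Not at this
            exact this)
        have h2 : #G ≤ 2 * ((6 * m * 7 ^ D) * (D * (1 + 2 * B) * (#S1 * #S2))) := by
          refine hB.trans (Nat.mul_le_mul_left 2 (h1.trans (Nat.mul_le_mul_left _ ?_)))
          have h3 : #(S1 ∪ S2) ≤ 2 * (#S1 * #S2) := by
            refine (card_union_le _ _).trans ?_
            have h5 : #S1 ≤ #S1 * #S2 := Nat.le_mul_of_pos_right _ (by omega)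
            have h6 : #S2 ≤ #S1 * #S2 := Nat.le_mul_of_pos_left _ (by omega)
            omega
          have h4 : B * (D * #(S1 ∪ S2)) ≤ B * (D * (2 * (#S1 * #S2))) :=
            Nat.mul_le_mul_left _ (Nat.mul_le_mul_left _ h3)
          calc D * (#S1 * #S2) + B * (D * #(S1 ∪ S2))
              ≤ D * (#S1 * #S2) + B * (D * (2 * (#S1 * #S2))) := Nat.add_le_add_left h4 _
            _ = D * (1 + 2 * B) * (#S1 * #S2) := by ring
        have h3 : (#G : ℝ) ≤ 2 * (((6 * m * 7 ^ D : ℕ) : ℝ) *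
            (D * (1 + 2 * B) * ((#S1 : ℝ) * (#S2 : ℝ)))) := by
          exact_mod_cast h2
        have hS1' : (1 : ℝ) ≤ (#S1 : ℝ) * (#S2 : ℝ) := by
          have h5 : 1 ≤ #S1 * #S2 := Nat.mul_pos hS1 hS2
          exact_mod_cast h5
        have h4 : (#S1 : ℝ) * (#S2 : ℝ) ≤ ((#S1 : ℝ) * (#S2 : ℝ)) ^ (1 + ε) := by
          conv_lhs => rw [← Real.rpow_one ((#S1 : ℝ) * (#S2 : ℝ))]
          exact Real.rpow_le_rpow_of_exponent_le hS1' (by linarith)
        have h5 : 0 ≤ ((#S1 : ℝ) * (#S2 : ℝ)) ^ (1 + ε) := by positivity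
        calc (#G : ℝ) ≤ 2 * (((6 * m * 7 ^ D : ℕ) : ℝ) *
              (D * (1 + 2 * B) * ((#S1 : ℝ) * (#S2 : ℝ)))) := h3
          _ = (2 * ((6 * m * 7 ^ D : ℕ) : ℝ) * (D * (1 + 2 * B))) * ((#S1 : ℝ) * (#S2 : ℝ)) := by
              ring
          _ ≤ (2 * ((6 * m * 7 ^ D : ℕ) : ℝ) * (D * (1 + 2 * B))) *
              ((#S1 : ℝ) * (#S2 : ℝ)) ^ (1 + ε) :=
              mul_le_mul_of_nonneg_left h4 (by positivity)
          _ ≤ C * ((#S1 : ℝ) * (#S2 : ℝ)) ^ (1 + ε) := by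
              rw [hC, add_mul, one_mul]
              linarith
  exact fun S1 S2 G h1 h2 => main _ S1 S2 G le_rfl h1 h2

/-- **Theorem PL-BIP** -/
theorem coreBip : CoreBipStmt := coreBip_of_wall (wallBipStmt planeStmt planesStmt lineStmt)

end Vale.Agent.P054.PL
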