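import Mathlib.LinearAlgebra.CrossProduct
import Mathlib.Algebra.MvPolynomial.PDeriv
import Mathlib.RingTheory.MvPolynomial.Basic
import Mathlib.Analysis.SpecialFunctions.Pow.Real
import Mathlib.Tactic

/-! Theorem PL (planar type), Cayley form.  `p = (ω, w)` stands for the proper motion `g` with
`g a = c ↔ c - a = ω × (a + c) + w`. -/

namespace Vale.Agent.P054.PL

open MvPolynomial Matrix

abbrev V3 := Fin 3 → ℝ

/-- the pair `q = (a, c)` is matched by the motion `p = (ω, w)` -/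
def Mt (p q : V3 × V3) : Prop := q.2 - q.1 = crossProduct p.1 (q.1 + q.2) + p.2

/-- the point of `ℝ⁶` of a motion -/
def pv (p : V3 × V3) : Fin 6 → ℝ := ![p.1 0, p.1 1, p.1 2, p.2 0, p.2 1, p.2 2]

/-- the `w`-coordinate on the flat `L_q` -/
def wq (q : V3 × V3) (ω : V3) : V3 := (q.2 - q.1) - crossProduct ω (q.1 + q.2)

/-- parametrisation of the flat `L_q` by `ω ∈ ℝ³` -/
noncomputable def Lq (q : V3 × V3) : Fin 6 → MvPolynomial (Fin 3) ℝ :=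
  ![X 0, X 1, X 2,
    C (q.2 0 - q.1 0) - (X 1 * C (q.1 2 + q.2 2) - X 2 * C (q.1 1 + q.2 1)),
    C (q.2 1 - q.1 1) - (X 2 * C (q.1 0 + q.2 0) - X 0 * C (q.1 2 + q.2 2)),
    C (q.2 2 - q.1 2) - (X 0 * C (q.1 1 + q.2 1) - X 1 * C (q.1 0 + q.2 0))]

/-- restriction of a polynomial on `ℝ⁶` to the flat `L_q` -/
noncomputable def hq (h : MvPolynomial (Fin 6) ℝ) (q : V3 × V3) : MvPolynomial (Fin 3) ℝ :=
  aeval (Lq q) h

/-- the improper partner: `q` belongs to the graph of the improper motion through `q0` given by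
the plane `{ω | n ⬝ ω = δ}` -/
def TR (n : V3) (δ : ℝ) (q0 q : V3 × V3) : Prop :=
  n ⬝ᵥ ((q.1 - q0.1) + (q.2 - q0.2)) = 0 ∧
  crossProduct n ((q.2 - q0.2) - (q.1 - q0.1)) = (-δ) • ((q.1 - q0.1) + (q.2 - q0.2))

open scoped Classical in
/-- the pairs of `S` matched by `p` -/
noncomputable def Ms (S : Finset (V3 × V3)) (p : V3 × V3) : Finset (V3 × V3) := S.filter (Mt p)

/-- planar motion (for the pairs of `S`) with at least `K` matched points off every line -/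
structure Good (S : Finset (V3 × V3)) (K : ℕ) (p : V3 × V3) : Prop where
  rho : open scoped Classical in ∀ x b : V3, b ≠ 0 →
    K ≤ ((Ms S p).filter (fun q => crossProduct (q.1 - x) b ≠ 0)).card
  plane : ∃ m : V3, m ≠ 0 ∧ ∀ q ∈ Ms S p, ∀ q' ∈ Ms S p, m ⬝ᵥ (q'.1 - q.1) = 0

open scoped Classical in
/-- `B`-exclusive partners: every improper motion contains the matched sets of at most `B` motions
of `G` -/
def Fib (S G : Finset (V3 × V3)) (B : ℕ) : Prop :=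
  ∀ q0 ∈ S, ∀ n : V3, n ≠ 0 → ∀ δ : ℝ,
    (G.filter (fun p => q0 ∈ Ms S p ∧ ∀ q ∈ Ms S p, TR n δ q0 q)).card ≤ B

/-! ### The statements of the leaves -/

/-- (L1a) a polynomial of degree `≤ D` on `ℝ³` vanishing on `D + 1` concurrent coplanar lines
vanishes on the plane -/
def PlaneStmt : Prop := ∀ (D : ℕ) (f : MvPolynomial (Fin 3) ℝ), f.totalDegree ≤ D →
  ∀ (x n : V3), n ≠ 0 → ∀ (A : Finset V3), D < A.card →
  (∀ s ∈ A, s ≠ 0 ∧ n ⬝ᵥ s = 0 ∧ ∀ t : ℝ, eval (x + t • s) f = 0) →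
  (∀ s ∈ A, ∀ s' ∈ A, s ≠ s' → crossProduct s s' ≠ 0) →
  ∀ y : V3, n ⬝ᵥ y = n ⬝ᵥ x → eval y f = 0

/-- (L1b) a nonzero polynomial of degree `≤ D` on `ℝ³` vanishes on at most `D` planes -/
def PlanesStmt : Prop := ∀ (D : ℕ) (f : MvPolynomial (Fin 3) ℝ), f ≠ 0 → f.totalDegree ≤ D →
  ∀ (ι : Type) (I : Finset ι) (n : ι → V3) (δ : ι → ℝ), (∀ i ∈ I, n i ≠ 0) →
  (∀ i ∈ I, ∀ y : V3, n i ⬝ᵥ y = δ i → eval y f = 0) →
  (∀ i ∈ I, ∀ j ∈ I, i ≠ j → ¬ (∀ y : V3, n i ⬝ᵥ y = δ i ↔ n j ⬝ᵥ y = δ j)) →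
  I.card ≤ D

/-- (L1c) restriction to a line: a nonzero restriction has at most `D` zeros -/
def LineStmt : Prop := ∀ (D : ℕ) (f : MvPolynomial (Fin 3) ℝ), f.totalDegree ≤ D →
  ∀ (x s : V3), (∃ t : ℝ, eval (x + t • s) f ≠ 0) →
  ∀ T : Finset ℝ, (∀ t ∈ T, eval (x + t • s) f = 0) → T.card ≤ D

/-- (L3) directions: `A` finite in `ℝ³` with at least `D ^ 2 + 2` points off every line, `B ⊆ A`
on a line; some `a ∈ A \ B` sees `D + 1` points of `A` in pairwise different directions.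
[Two points `a, a'` that see at most `D` directions leave at most `D ^ 2` points off the line
`a a'`; so at most one point of `A` sees at most `D` directions.] -/
def DirStmt : Prop := open scoped Classical in
  ∀ (D : ℕ) (A B : Finset V3), B ⊆ A →
  (∀ x b : V3, b ≠ 0 → D ^ 2 + 2 ≤ (A.filter (fun a => crossProduct (a - x) b ≠ 0)).card) →
  (∀ x ∈ B, ∀ y ∈ B, ∀ z ∈ B, crossProduct (y - x) (z - x) = 0) →
  ∃ a ∈ A, a ∉ B ∧ ∃ A' : Finset V3, A' ⊆ A ∧ a ∉ A' ∧ D < A'.card ∧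
    ∀ x ∈ A', ∀ y ∈ A', x ≠ y → crossProduct (x - a) (y - a) ≠ 0

/-- (L4) the wall count for one polynomial `h` -/
def WallStmt : Prop := ∀ (D : ℕ) (h : MvPolynomial (Fin 6) ℝ), h.totalDegree ≤ D →
  ∀ (S G : Finset (V3 × V3)) (B : ℕ), (∀ p ∈ G, Good S (D ^ 2 + 2) p) → Fib S G B →
  (∀ p ∈ G, eval (pv p) h = 0 ∧ ∃ i, eval (pv p) (pderiv i h) ≠ 0) →
  G.card ≤ D * S.card ^ 2 + B * (D * S.card)

/-- (L5) the theorem in Cayley form -/
def CoreStmt : Prop := ∀ ε : ℝ, 0 < ε → ∃ K : ℕ, ∀ B : ℕ, ∃ C : ℝ, 0 < C ∧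
  ∀ (S G : Finset (V3 × V3)), (∀ p ∈ G, Good S K p) → Fib S G B →
  (G.card : ℝ) ≤ C * (S.card : ℝ) ^ (2 + ε)

end Vale.Agent.P054.PL
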