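import Vale.Agent.P054.Y.PL.Geo

/-! Theorem PL, leaf (L3): directions. -/

namespace Vale.Agent.P054.PL

open Matrix

/-- maximal set of points seen from `a` in different directions -/
theorem exists_dirs (A : Finset V3) (a : V3) : ∃ A' : Finset V3, A' ⊆ A ∧ a ∉ A' ∧
    (∀ x ∈ A', ∀ y ∈ A', x ≠ y → crossProduct (x - a) (y - a) ≠ 0) ∧
    ∀ x ∈ A, x ≠ a → ∃ y ∈ A', crossProduct (x - a) (y - a) = 0 := by
  classical
  set P : Finset (Finset V3) := (A.erase a).powerset.filter
    (fun A' => ∀ x ∈ A', ∀ y ∈ A', x ≠ y → crossProduct (x - a) (y - a) ≠ 0) with hP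
  have hne : P.Nonempty := ⟨∅, by simp [hP]⟩
  obtain ⟨A', hA', hmax⟩ := Finset.exists_max_image P Finset.card hne
  rw [hP, Finset.mem_filter, Finset.mem_powerset] at hA'
  refine ⟨A', hA'.1.trans (Finset.erase_subset _ _), fun h => by simpa using hA'.1 h, hA'.2, ?_⟩
  intro x hx hxa
  by_cases hxA : x ∈ A'
  · exact ⟨x, hxA, cross_self _⟩
  by_contra hcon
  push Not at hcon
  have h1 : insert x A' ∈ P := by
    rw [hP, Finset.mem_filter, Finset.mem_powerset]
    refine ⟨?_, ?_⟩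
    · intro z hz
      rcases Finset.mem_insert.1 hz with rfl | hz
      · exact Finset.mem_erase.2 ⟨hxa, hx⟩
      · exact hA'.1 hz
    · intro y hy z hz hyz
      rcases Finset.mem_insert.1 hy with hy1 | hy1
      · rcases Finset.mem_insert.1 hz with hz1 | hz1
        · exact absurd (hy1.trans hz1.symm) hyz
        · rw [hy1]; exact hcon z hz1
      · rcases Finset.mem_insert.1 hz with hz1 | hz1
        · intro hc
          apply hcon y hy1
          rw [hz1] at hc
          rw [← cross_anticomm, hc, neg_zero]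
        · exact hA'.2 y hy1 z hz1 hyz
  have h2 := hmax _ h1
  rw [Finset.card_insert_of_notMem hxA] at h2
  omega

theorem dirStmt : DirStmt := by
  classical
  intro D A B hBA hoff hB
  by_contra hcon
  push Not at hcon
  -- `B` is on a line
  obtain ⟨x0, b0, hb0, hBl⟩ : ∃ x b : V3, b ≠ 0 ∧ ∀ z ∈ B, crossProduct (z - x) b = 0 := by
    by_cases h1 : ∃ x ∈ B, ∃ y ∈ B, x ≠ y
    · obtain ⟨x, hx, y, hy, hxy⟩ := h1
      refine ⟨x, y - x, fun hc => hxy (sub_eq_zero.1 hc).symm, fun z hz => ?_⟩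
      rw [← cross_anticomm, hB x hx y hy z hz, neg_zero]
    · push Not at h1
      rcases B.eq_empty_or_nonempty with he | ⟨x, hx⟩
      · exact ⟨0, ![1, 0, 0], fun hc => by simpa using congrFun hc 0, fun z hz => by
          rw [he] at hz; exact absurd hz (Finset.notMem_empty z)⟩
      · refine ⟨x, ![1, 0, 0], fun hc => by simpa using congrFun hc 0, fun z hz => ?_⟩
        rw [← h1 x hx z hz]
        simp
  have h1 := hoff x0 b0 hb0
  obtain ⟨p, hp, p', hp', hpp⟩ : ∃ p ∈ A.filter (fun a => crossProduct (a - x0) b0 ≠ 0),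
      ∃ p' ∈ A.filter (fun a => crossProduct (a - x0) b0 ≠ 0), p ≠ p' := by
    have h2 : 1 < (A.filter (fun a => crossProduct (a - x0) b0 ≠ 0)).card := by
      refine lt_of_lt_of_le ?_ h1
      omega
    obtain ⟨p, hp, p', hp', h⟩ := Finset.one_lt_card.1 h2
    exact ⟨p, hp, p', hp', h⟩
  rw [Finset.mem_filter] at hp hp'
  have hpB : p ∉ B := fun h => hp.2 (hBl p h)
  have hpB' : p' ∉ B := fun h => hp'.2 (hBl p' h)
  obtain ⟨A1, hA1, hpA1, hd1, hc1⟩ := exists_dirs A p
  obtain ⟨A2, hA2, hpA2, hd2, hc2⟩ := exists_dirs A p'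
  have hA1c : A1.card ≤ D := by
    by_contra h
    push Not at h
    obtain ⟨x, hx, y, hy, hxy, hc⟩ := hcon p hp.1 hpB A1 hA1 hpA1 h
    exact hd1 x hx y hy hxy hc
  have hA2c : A2.card ≤ D := by
    by_contra h
    push Not at h
    obtain ⟨x, hx, y, hy, hxy, hc⟩ := hcon p' hp'.1 hpB' A2 hA2 hpA2 h
    exact hd2 x hx y hy hxy hc
  have hpp' : p' - p ≠ 0 := fun h => hpp (sub_eq_zero.1 h).symm
  have h2 := hoff p (p' - p) hpp'
  set W := A.filter (fun a => crossProduct (a - p) (p' - p) ≠ 0) with hW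
  have hWm : ∀ x ∈ W, x ∈ A ∧ x ≠ p ∧ x ≠ p' := by
    intro x hx
    rw [hW, Finset.mem_filter] at hx
    refine ⟨hx.1, ?_, ?_⟩
    · rintro rfl
      exact hx.2 (by simp)
    · rintro rfl
      exact hx.2 (cross_self _)
  have he1 : ∀ x ∈ W, ∃ y ∈ A1, crossProduct (x - p) (y - p) = 0 := fun x hx =>
    hc1 x (hWm x hx).1 (hWm x hx).2.1
  have he2 : ∀ x ∈ W, ∃ y ∈ A2, crossProduct (x - p') (y - p') = 0 := fun x hx =>
    hc2 x (hWm x hx).1 (hWm x hx).2.2
  choose! y hy hyc using he1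
  choose! y' hy' hyc' using he2
  have par : ∀ (o u v w : V3), w ≠ o → crossProduct (u - o) (w - o) = 0 →
      crossProduct (v - o) (w - o) = 0 → crossProduct (u - o) (v - u) = 0 := by
    intro o u v w hw h1 h2
    have hw' : w - o ≠ 0 := fun h => hw (sub_eq_zero.1 h)
    have e1 := par_of_cross h1 hw'
    have e2 := par_of_cross h2 hw'
    have e3 : v - u = (v - o) - (u - o) := by abel
    rw [e3, e2, e1]
    simp
  have hinj : Set.InjOn (fun x => (y x, y' x)) (W : Set V3) := by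
    intro x1 hx1 x2 hx2 he
    by_contra hne
    have e1 : y x1 = y x2 := congrArg Prod.fst he
    have e2 : y' x1 = y' x2 := congrArg Prod.snd he
    have hx1' : x1 ∈ W := hx1
    have hx2' : x2 ∈ W := hx2
    have n1 : y x1 ≠ p := fun h => hpA1 (h ▸ hy x1 hx1')
    have n2 : y' x1 ≠ p' := fun h => hpA2 (h ▸ hy' x1 hx1')
    have k1 := par p x1 x2 (y x1) n1 (hyc x1 hx1') (by rw [e1]; exact hyc x2 hx2')
    have k2 := par p' x1 x2 (y' x1) n2 (hyc' x1 hx1') (by rw [e2]; exact hyc' x2 hx2')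
    have hw : x2 - x1 ≠ 0 := fun h => hne (sub_eq_zero.1 h).symm
    have f1 := par_of_cross k1 hw
    have f2 := par_of_cross k2 hw
    have h3 : crossProduct (x1 - p) (p' - p) ≠ 0 := by
      rw [hW] at hx1'
      exact (Finset.mem_filter.1 hx1').2
    apply h3
    have f3 : p' - p = (x1 - p) - (x1 - p') := by abel
    rw [f3, f2, f1]
    simp
  have hcard : W.card ≤ D ^ 2 := by
    rw [← Finset.card_image_of_injOn hinj]
    have h3 : W.image (fun x => (y x, y' x)) ⊆ A1 ×ˢ A2 := by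
      intro z hz
      obtain ⟨x, hx, rfl⟩ := Finset.mem_image.1 hz
      exact Finset.mem_product.2 ⟨hy x hx, hy' x hx⟩
    refine (Finset.card_le_card h3).trans ?_
    rw [Finset.card_product, sq]
    exact Nat.mul_le_mul hA1c hA2c
  omega

end Vale.Agent.P054.PL
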