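import Vale.Agent.P054.Y.PL.Wall
import Vale.Agent.P054.J.Cayley
import Vale.Agent.P054.J.Generic

/-! Theorem PL for matrix motions `g = (Q, v)`, `Qᵀ Q = 1`, from the Cayley form `CoreStmt`. -/

set_option linter.all false

namespace Vale.Agent.P054.PL

open MvPolynomial Matrix

/-- a motion `x ↦ Q x + v` -/
abbrev Mo := Matrix (Fin 3) (Fin 3) ℝ × V3

/-- the motion `g` maps `q.1` to `q.2` -/
def mm (g : Mo) (q : V3 × V3) : Prop := g.1.mulVec q.1 + g.2 = q.2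

open scoped Classical in
/-- matched pairs -/
noncomputable def MM (S : Finset (V3 × V3)) (g : Mo) : Finset (V3 × V3) := S.filter (mm g)

theorem mem_MM {S : Finset (V3 × V3)} {g : Mo} {q : V3 × V3} : q ∈ MM S g ↔ q ∈ S ∧ mm g q := by
  classical
  simp [MM]

/-- planar, at least `K` matched points off every line -/
structure PGood (S : Finset (V3 × V3)) (K : ℕ) (g : Mo) : Prop where
  rho : open scoped Classical in ∀ x b : V3, b ≠ 0 →
    K ≤ ((MM S g).filter (fun q => crossProduct (q.1 - x) b ≠ 0)).card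
  plane : ∃ m : V3, m ≠ 0 ∧ ∀ q ∈ MM S g, ∀ q' ∈ MM S g, m ⬝ᵥ (q'.1 - q.1) = 0

open scoped Classical in
/-- every motion (proper or not) contains the matched sets of at most `B` motions of `G` -/
def PFib (S : Finset (V3 × V3)) (G : Finset Mo) (B : ℕ) : Prop :=
  ∀ h : Mo, h.1ᵀ * h.1 = 1 → (G.filter (fun g => ∀ q ∈ S, mm g q → mm h q)).card ≤ B

/-! ### the improper partner as a matrix motion -/

noncomputable def nn (n : V3) (δ : ℝ) : ℝ := δ ^ 2 + (n 0 ^ 2 + n 1 ^ 2 + n 2 ^ 2)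

noncomputable def TQ (n : V3) (δ : ℝ) : Matrix (Fin 3) (Fin 3) ℝ :=
  (-(nn n δ)⁻¹) • !![
    (δ ^ 2 - (n 0 ^ 2 + n 1 ^ 2 + n 2 ^ 2)) + 2 * n 0 * n 0, 2 * n 0 * n 1 + 2 * δ * n 2,
      2 * n 0 * n 2 - 2 * δ * n 1;
    2 * n 1 * n 0 - 2 * δ * n 2, (δ ^ 2 - (n 0 ^ 2 + n 1 ^ 2 + n 2 ^ 2)) + 2 * n 1 * n 1,
      2 * n 1 * n 2 + 2 * δ * n 0;
    2 * n 2 * n 0 + 2 * δ * n 1, 2 * n 2 * n 1 - 2 * δ * n 0,
      (δ ^ 2 - (n 0 ^ 2 + n 1 ^ 2 + n 2 ^ 2)) + 2 * n 2 * n 2]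

theorem nn_pos {n : V3} (hn : n ≠ 0) (δ : ℝ) : 0 < nn n δ := by
  unfold nn
  have h : 0 < n 0 ^ 2 + n 1 ^ 2 + n 2 ^ 2 := by
    rcases (by positivity : 0 ≤ n 0 ^ 2 + n 1 ^ 2 + n 2 ^ 2).lt_or_eq with h | h
    · exact h
    · exfalso
      apply hn
      apply v3_self
      rw [dp]
      linarith
  positivity

theorem TQ_orth {n : V3} (hn : n ≠ 0) (δ : ℝ) : (TQ n δ)ᵀ * TQ n δ = 1 := by
  have hN : nn n δ ≠ 0 := (nn_pos hn δ).ne'
  have e : ∀ i j, ((TQ n δ)ᵀ * TQ n δ) i j = (1 : Matrix (Fin 3) (Fin 3) ℝ) i j := by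
    intro i j
    fin_cases i <;> fin_cases j <;>
    · simp [Matrix.mul_apply, Fin.sum_univ_three, TQ]
      field_simp
      unfold nn
      ring
  ext i j
  exact e i j

theorem TQ_of_TR {n : V3} (hn : n ≠ 0) {δ : ℝ} {q0 q : V3 × V3} (h : TR n δ q0 q) :
    (TQ n δ).mulVec (q.1 - q0.1) = q.2 - q0.2 := by
  obtain ⟨h1, h2⟩ := h
  have hN : nn n δ ≠ 0 := (nn_pos hn δ).ne'
  set u := q.1 - q0.1
  set v := q.2 - q0.2
  rw [dp] at h1
  have e0 := congrFun h2 0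
  have e1 := congrFun h2 1
  have e2 := congrFun h2 2
  rw [cr] at e0 e1 e2
  simp only [Matrix.cons_val, Pi.sub_apply, Pi.add_apply, Pi.smul_apply, smul_eq_mul] at e0 e1 e2 h1
  have key : ∀ k, nn n δ * v k = - (nn n δ * (-(TQ n δ).mulVec u k)) := by
    intro k
    have hT : nn n δ * (-(TQ n δ).mulVec u k) =
        (!![
    (δ ^ 2 - (n 0 ^ 2 + n 1 ^ 2 + n 2 ^ 2)) + 2 * n 0 * n 0, 2 * n 0 * n 1 + 2 * δ * n 2,
      2 * n 0 * n 2 - 2 * δ * n 1;
    2 * n 1 * n 0 - 2 * δ * n 2, (δ ^ 2 - (n 0 ^ 2 + n 1 ^ 2 + n 2 ^ 2)) + 2 * n 1 * n 1,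
      2 * n 1 * n 2 + 2 * δ * n 0;
    2 * n 2 * n 0 + 2 * δ * n 1, 2 * n 2 * n 1 - 2 * δ * n 0,
      (δ ^ 2 - (n 0 ^ 2 + n 1 ^ 2 + n 2 ^ 2)) + 2 * n 2 * n 2] : Matrix (Fin 3) (Fin 3) ℝ).mulVec u k := by
      unfold TQ
      rw [Matrix.smul_mulVec]
      simp only [Pi.smul_apply, smul_eq_mul]
      field_simp
    rw [hT]
    unfold nn
    fin_cases k <;> simp [Matrix.mulVec, dotProduct, Fin.sum_univ_three]
    · linear_combination δ * e0 - (n 1 * e2 - n 2 * e1) + n 0 * h1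
    · linear_combination δ * e1 - (n 2 * e0 - n 0 * e2) + n 1 * h1
    · linear_combination δ * e2 - (n 0 * e1 - n 1 * e0) + n 2 * h1
  funext k
  have := key k
  have h3 : nn n δ * v k = nn n δ * (TQ n δ).mulVec u k := by linarith
  exact (mul_left_cancel₀ hN h3).symm

/-- the improper motion of `(n, δ, q0)` -/
noncomputable def TM (n : V3) (δ : ℝ) (q0 : V3 × V3) : Mo :=
  (TQ n δ, q0.2 - (TQ n δ).mulVec q0.1)

theorem mm_TM {n : V3} (hn : n ≠ 0) {δ : ℝ} {q0 q : V3 × V3} (h : TR n δ q0 q) :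
    mm (TM n δ q0) q := by
  have h1 := TQ_of_TR hn h
  unfold mm TM
  simp only
  rw [Matrix.mulVec_sub] at h1
  have : (TQ n δ).mulVec q.1 = q.2 - q0.2 + (TQ n δ).mulVec q0.1 := by rw [← h1]; abel
  rw [this]
  abel

/-! ### Cayley coordinates -/

noncomputable def cp (g : Mo) : V3 × V3 := (J.cyOm g, J.cyW g)

theorem Mt_of_mm {g : Mo} (hQ : g.1ᵀ * g.1 = 1) (hd : (1 + g.1).det ≠ 0) {q : V3 × V3}
    (h : mm g q) : Mt (cp g) q := by
  have h1 := J.cy_flat hQ hd h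
  unfold Mt cp
  rw [cr]
  funext k
  have h2 := h1 k
  simp only [Pi.sub_apply, Pi.add_apply]
  rw [h2]
  fin_cases k <;> simp [J.cyCr]

theorem mm_iff {g : Mo} (hQ : g.1ᵀ * g.1 = 1) (hd : (1 + g.1).det ≠ 0) (q : V3 × V3) :
    Mt (cp g) q ↔ mm g q := by
  constructor
  · intro h
    have h1 : mm g (q.1, g.1.mulVec q.1 + g.2) := rfl
    have h2 := Mt_of_mm hQ hd h1
    have h3 := Mt.snd_eq h h2 rfl
    have h4 : q.2 = g.1.mulVec q.1 + g.2 := congrArg Prod.snd h3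
    exact h4.symm
  · exact Mt_of_mm hQ hd

theorem Ms_eq {g : Mo} (hQ : g.1ᵀ * g.1 = 1) (hd : (1 + g.1).det ≠ 0) (S : Finset (V3 × V3)) :
    Ms S (cp g) = MM S g := by
  ext q
  rw [mem_Ms, mem_MM, mm_iff hQ hd]

theorem final_chart (hC : CoreStmt) (ε : ℝ) (hε : 0 < ε) : ∃ K : ℕ, ∀ B : ℕ, ∃ C : ℝ, 0 < C ∧
    ∀ (S : Finset (V3 × V3)) (G : Finset Mo), (∀ g ∈ G, g.1ᵀ * g.1 = 1) →
      (∀ g ∈ G, (1 + g.1).det ≠ 0) → (∀ g ∈ G, PGood S K g) → PFib S G B →
      (G.card : ℝ) ≤ C * (S.card : ℝ) ^ (2 + ε) := by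
  classical
  obtain ⟨K, hK⟩ := hC ε hε
  refine ⟨K, fun B => ?_⟩
  obtain ⟨C, hC0, hC1⟩ := hK B
  refine ⟨C, hC0, fun S G hQ hd hG hF => ?_⟩
  have hinj : Set.InjOn cp (G : Set Mo) := by
    intro g hg g' hg' he
    exact J.cy_inj (hQ g hg) (hd g hg) (hQ g' hg') (hd g' hg') (congrArg Prod.fst he)
      (congrArg Prod.snd he)
  have h := hC1 S (G.image cp) ?_ ?_
  · rwa [Finset.card_image_of_injOn hinj] at h
  · intro p hp
    obtain ⟨g, hg, rfl⟩ := Finset.mem_image.1 hp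
    have h1 := Ms_eq (hQ g hg) (hd g hg) S
    refine ⟨?_, ?_⟩
    · intro x b hb
      rw [h1]
      exact (hG g hg).rho x b hb
    · rw [h1]
      exact (hG g hg).plane
  · intro q0 hq0 n hn δ
    have h2 := hF (TM n δ q0) (TQ_orth hn δ)
    refine le_trans ?_ h2
    have h3 : (G.image cp).filter (fun p => q0 ∈ Ms S p ∧ ∀ q ∈ Ms S p, TR n δ q0 q) ⊆
        (G.filter (fun g => ∀ q ∈ S, mm g q → mm (TM n δ q0) q)).image cp := by
      intro p hp
      rw [Finset.mem_filter] at hp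
      obtain ⟨hp1, hp2, hp3⟩ := hp
      obtain ⟨g, hg, rfl⟩ := Finset.mem_image.1 hp1
      refine Finset.mem_image.2 ⟨g, Finset.mem_filter.2 ⟨hg, ?_⟩, rfl⟩
      intro q hq hm
      apply mm_TM hn
      apply hp3
      rw [Ms_eq (hQ g hg) (hd g hg)]
      exact mem_MM.2 ⟨hq, hm⟩
    exact (Finset.card_le_card h3).trans Finset.card_image_le

/-! ### transfer by an orthogonal matrix acting on the targets -/

def tS (U : Matrix (Fin 3) (Fin 3) ℝ) (q : V3 × V3) : V3 × V3 := (q.1, U.mulVec q.2)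

def tG (U : Matrix (Fin 3) (Fin 3) ℝ) (g : Mo) : Mo := (U * g.1, U.mulVec g.2)

theorem mulVec_inj {U : Matrix (Fin 3) (Fin 3) ℝ} (hU : Uᵀ * U = 1) {x y : V3}
    (h : U.mulVec x = U.mulVec y) : x = y := by
  have h1 := congrArg (fun u => Uᵀ.mulVec u) h
  simpa [Matrix.mulVec_mulVec, hU] using h1

theorem mm_t {U : Matrix (Fin 3) (Fin 3) ℝ} (hU : Uᵀ * U = 1) (g : Mo) (q : V3 × V3) :
    mm (tG U g) (tS U q) ↔ mm g q := by
  unfold mm tG tS
  simp only
  rw [← Matrix.mulVec_mulVec, ← Matrix.mulVec_add]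
  exact ⟨fun h => mulVec_inj hU h, fun h => by rw [h]⟩

theorem tS_inj {U : Matrix (Fin 3) (Fin 3) ℝ} (hU : Uᵀ * U = 1) : Function.Injective (tS U) := by
  intro q q' h
  have h1 : (tS U q).1 = (tS U q').1 := congrArg Prod.fst h
  exact Prod.ext h1 (mulVec_inj hU (congrArg Prod.snd h))

theorem tG_inj {U : Matrix (Fin 3) (Fin 3) ℝ} (hU : Uᵀ * U = 1) : Function.Injective (tG U) := by
  intro g g' h
  have h1 : U * g.1 = U * g'.1 := congrArg Prod.fst h
  refine Prod.ext ?_ (mulVec_inj hU (congrArg Prod.snd h))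
  have h3 := congrArg (fun M => Uᵀ * M) h1
  simpa [← Matrix.mul_assoc, hU] using h3

theorem MM_t {U : Matrix (Fin 3) (Fin 3) ℝ} (hU : Uᵀ * U = 1) (S : Finset (V3 × V3)) (g : Mo) :
    open scoped Classical in MM (S.image (tS U)) (tG U g) = (MM S g).image (tS U) := by
  classical
  ext q
  rw [mem_MM, Finset.mem_image, Finset.mem_image]
  constructor
  · rintro ⟨⟨q', hq', rfl⟩, hm⟩
    exact ⟨q', mem_MM.2 ⟨hq', (mm_t hU g q').1 hm⟩, rfl⟩
  · rintro ⟨q', hq', rfl⟩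
    obtain ⟨h1, h2⟩ := mem_MM.1 hq'
    exact ⟨⟨q', h1, rfl⟩, (mm_t hU g q').2 h2⟩

theorem PGood_t {U : Matrix (Fin 3) (Fin 3) ℝ} (hU : Uᵀ * U = 1) {S : Finset (V3 × V3)} {K : ℕ}
    {g : Mo} (h : PGood S K g) :
    open scoped Classical in PGood (S.image (tS U)) K (tG U g) := by
  classical
  have h1 := MM_t hU S g
  refine ⟨?_, ?_⟩
  · intro x b hb
    refine (h.rho x b hb).trans ?_
    have h2 : (MM (S.image (tS U)) (tG U g)).filter (fun q => crossProduct (q.1 - x) b ≠ 0) =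
        ((MM S g).filter (fun q => crossProduct (q.1 - x) b ≠ 0)).image (tS U) := by
      have h3 : MM (S.image (tS U)) (tG U g) = (MM S g).image (tS U) := by
        convert h1
      rw [h3, Finset.filter_image]
      rfl
    have h4 := Finset.card_image_of_injective
      ((MM S g).filter (fun q => crossProduct (q.1 - x) b ≠ 0)) (tS_inj hU)
    rw [← h4, ← h2]
  · obtain ⟨m, hm, hp⟩ := h.plane
    refine ⟨m, hm, ?_⟩
    intro q hq q' hq'
    have h3 : MM (S.image (tS U)) (tG U g) = (MM S g).image (tS U) := by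
      convert h1
    rw [h3] at hq hq'
    obtain ⟨q1, hq1, rfl⟩ := Finset.mem_image.1 hq
    obtain ⟨q2, hq2, rfl⟩ := Finset.mem_image.1 hq'
    exact hp q1 hq1 q2 hq2

theorem PFib_t {U : Matrix (Fin 3) (Fin 3) ℝ} (hU : Uᵀ * U = 1) {S : Finset (V3 × V3)}
    {G : Finset Mo} {B : ℕ} (h : PFib S G B) :
    open scoped Classical in PFib (S.image (tS U)) (G.image (tG U)) B := by
  classical
  intro k hk
  have hU' : U * Uᵀ = 1 := mul_eq_one_comm.1 hU
  have hUt : (Uᵀ)ᵀ * Uᵀ = 1 := by rw [Matrix.transpose_transpose]; exact hU'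
  have h1 := h (tG Uᵀ k) (by
    show (Uᵀ * k.1)ᵀ * (Uᵀ * k.1) = 1
    rw [Matrix.transpose_mul, Matrix.transpose_transpose, Matrix.mul_assoc, ← Matrix.mul_assoc U,
      hU', Matrix.one_mul, hk])
  refine le_trans ?_ h1
  have h2 : (G.image (tG U)).filter (fun g => ∀ q ∈ S.image (tS U), mm g q → mm k q) ⊆
      (G.filter (fun g => ∀ q ∈ S, mm g q → mm (tG Uᵀ k) q)).image (tG U) := by
    intro g' hg'
    rw [Finset.mem_filter] at hg'
    obtain ⟨hg1, hg2⟩ := hg'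
    obtain ⟨g, hg, rfl⟩ := Finset.mem_image.1 hg1
    refine Finset.mem_image.2 ⟨g, Finset.mem_filter.2 ⟨hg, ?_⟩, rfl⟩
    intro q hq hm
    have h3 := hg2 (tS U q) (Finset.mem_image_of_mem _ hq) ((mm_t hU g q).2 hm)
    have h4 := (mm_t hUt k (tS U q)).2 h3
    have h5 : tS Uᵀ (tS U q) = q := by
      unfold tS
      simp [Matrix.mulVec_mulVec, hU]
    rwa [h5] at h4
  exact (Finset.card_le_card h2).trans Finset.card_image_le

/-- **Theorem PL** (exclusive planar type) for matrix motions. -/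
theorem pl_final (hC : CoreStmt) (ε : ℝ) (hε : 0 < ε) : ∃ K : ℕ, ∀ B : ℕ, ∃ C : ℝ, 0 < C ∧
    ∀ (S : Finset (V3 × V3)) (G : Finset Mo), (∀ g ∈ G, g.1ᵀ * g.1 = 1) →
      (∀ g ∈ G, PGood S K g) → PFib S G B →
      (G.card : ℝ) ≤ C * (S.card : ℝ) ^ (2 + ε) := by
  classical
  obtain ⟨K, hK⟩ := final_chart hC ε hε
  refine ⟨K, fun B => ?_⟩
  obtain ⟨C, hC0, hC1⟩ := hK B
  refine ⟨2 * C, by positivity, fun S G hQ hG hF => ?_⟩
  -- the part of `G` of determinant `s`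
  have part : ∀ s : ℝ, s * s = 1 →
      ((G.filter (fun g => g.1.det = s)).card : ℝ) ≤ C * (S.card : ℝ) ^ (2 + ε) := by
    intro s hs
    set Gs := G.filter (fun g => g.1.det = s) with hGs
    obtain ⟨Q0, ho, hd0, hne⟩ := J.exists_generic ((Gs.image (fun g => s • g.1))) (by
      intro Q hQ'
      obtain ⟨g, hg, rfl⟩ := Finset.mem_image.1 hQ'
      rw [hGs, Finset.mem_filter] at hg
      constructor
      · rw [Matrix.transpose_smul, Matrix.smul_mul, Matrix.mul_smul, smul_smul, hs, one_smul,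
          hQ g hg.1]
      · rw [Matrix.det_smul, hg.2]
        simp
        calc s ^ 3 * s = (s * s) * (s * s) := by ring
          _ = 1 := by rw [hs]; ring)
    set U : Matrix (Fin 3) (Fin 3) ℝ := s • Q0 with hU'
    have hU : Uᵀ * U = 1 := by
      rw [hU', Matrix.transpose_smul, Matrix.smul_mul, Matrix.mul_smul, smul_smul, hs, one_smul, ho]
    have h1 := hC1 (S.image (tS U)) (Gs.image (tG U)) ?_ ?_ ?_ ?_
    · rw [Finset.card_image_of_injective _ (tG_inj hU),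
        Finset.card_image_of_injective _ (tS_inj hU)] at h1
      exact h1
    · intro g' hg'
      obtain ⟨g, hg, rfl⟩ := Finset.mem_image.1 hg'
      rw [hGs, Finset.mem_filter] at hg
      show (U * g.1)ᵀ * (U * g.1) = 1
      rw [Matrix.transpose_mul, Matrix.mul_assoc, ← Matrix.mul_assoc Uᵀ, hU, Matrix.one_mul,
        hQ g hg.1]
    · intro g' hg'
      obtain ⟨g, hg, rfl⟩ := Finset.mem_image.1 hg'
      have h2 := hne (s • g.1) (Finset.mem_image_of_mem _ hg)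
      show (1 + U * g.1).det ≠ 0
      rw [hU', Matrix.smul_mul, ← Matrix.mul_smul]
      exact h2
    · intro g' hg'
      obtain ⟨g, hg, rfl⟩ := Finset.mem_image.1 hg'
      rw [hGs, Finset.mem_filter] at hg
      exact PGood_t hU (hG g hg.1)
    · refine PFib_t hU ?_
      intro k hk
      refine le_trans (Finset.card_le_card ?_) (hF k hk)
      exact Finset.filter_subset_filter _ (Finset.filter_subset _ _)
  have hcover : G = G.filter (fun g => g.1.det = 1) ∪ G.filter (fun g => g.1.det = -1) := by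
    ext g
    rw [Finset.mem_union, Finset.mem_filter, Finset.mem_filter]
    constructor
    · intro hg
      have h1 := congrArg Matrix.det (hQ g hg)
      rw [Matrix.det_mul, Matrix.det_transpose, Matrix.det_one] at h1
      rcases mul_self_eq_one_iff.1 h1 with h | h
      · exact Or.inl ⟨hg, h⟩
      · exact Or.inr ⟨hg, h⟩
    · rintro (h | h) <;> exact h.1
  have h1 := part 1 (by norm_num)
  have h2 := part (-1) (by norm_num)
  have h3 : (G.card : ℝ) ≤ ((G.filter (fun g => g.1.det = 1)).card : ℝ) +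
      ((G.filter (fun g => g.1.det = -1)).card : ℝ) := by
    have h4 := Finset.card_union_le (G.filter (fun g => g.1.det = 1))
      (G.filter (fun g => g.1.det = -1))
    rw [← hcover] at h4
    exact_mod_cast h4
  linarith

end Vale.Agent.P054.PL
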