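import Vale.Agent.P054.Y.PL.Defs
import Vale.Agent.P054.W.Flat

/-! Theorem PL: the Cayley geometry. -/

namespace Vale.Agent.P054.PL

open MvPolynomial Matrix

theorem cr (a b : V3) : crossProduct a b =
    ![a 1 * b 2 - a 2 * b 1, a 2 * b 0 - a 0 * b 2, a 0 * b 1 - a 1 * b 0] := cross_apply a b

theorem dp (a b : V3) : a ⬝ᵥ b = a 0 * b 0 + a 1 * b 1 + a 2 * b 2 := by
  simp [dotProduct, Fin.sum_univ_three]

theorem v3_ext {a b : V3} (h0 : a 0 = b 0) (h1 : a 1 = b 1) (h2 : a 2 = b 2) : a = b := by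
  funext i; fin_cases i <;> assumption

theorem v3_eq_zero {a : V3} (h0 : a 0 = 0) (h1 : a 1 = 0) (h2 : a 2 = 0) : a = 0 :=
  v3_ext h0 h1 h2

theorem v3_self {a : V3} (h : a ⬝ᵥ a = 0) : a = 0 := by
  rw [dp] at h
  have h0 : a 0 * a 0 = 0 := by nlinarith [mul_self_nonneg (a 0), mul_self_nonneg (a 1), mul_self_nonneg (a 2)]
  have h1 : a 1 * a 1 = 0 := by nlinarith [mul_self_nonneg (a 0), mul_self_nonneg (a 1), mul_self_nonneg (a 2)]
  have h2 : a 2 * a 2 = 0 := by nlinarith [mul_self_nonneg (a 0), mul_self_nonneg (a 1), mul_self_nonneg (a 2)]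
  exact v3_eq_zero (mul_self_eq_zero.1 h0) (mul_self_eq_zero.1 h1) (mul_self_eq_zero.1 h2)

theorem par_of_cross {a b : V3} (h : crossProduct a b = 0) (hb : b ≠ 0) :
    a = ((a ⬝ᵥ b) / (b ⬝ᵥ b)) • b := by
  have hbb : b ⬝ᵥ b ≠ 0 := fun hc => hb (v3_self hc)
  rw [cr] at h
  have e0 := congrFun h 0
  have e1 := congrFun h 1
  have e2 := congrFun h 2
  simp at e0 e1 e2
  rw [dp] at hbb
  rw [dp, dp]
  apply v3_ext <;>
  · simp only [Pi.smul_apply, smul_eq_mul]
    rw [div_mul_eq_mul_div, eq_div_iff hbb]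
    first
    | linear_combination b 1 * e2 - b 2 * e1
    | linear_combination b 2 * e0 - b 0 * e2
    | linear_combination b 0 * e1 - b 1 * e0

/-- the vectors `u = a' - a`, `v = c' - c`, `s = u + v` of two matched pairs -/
theorem Mt.sub {p q q' : V3 × V3} (h : Mt p q) (h' : Mt p q') :
    (q'.2 - q.2) - (q'.1 - q.1) = crossProduct p.1 ((q'.1 - q.1) + (q'.2 - q.2)) := by
  unfold Mt at h h'
  rw [cr] at h h' ⊢
  have a0 := congrFun h 0
  have a1 := congrFun h 1
  have a2 := congrFun h 2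
  have b0 := congrFun h' 0
  have b1 := congrFun h' 1
  have b2 := congrFun h' 2
  simp at a0 a1 a2 b0 b1 b2
  apply v3_ext <;> simp <;> linarith

/-- `s` -/
def sv (q q' : V3 × V3) : V3 := (q'.1 - q.1) + (q'.2 - q.2)

theorem two_u {p q q' : V3 × V3} (h : Mt p q) (h' : Mt p q') :
    (2 : ℝ) • (q'.1 - q.1) = sv q q' - crossProduct p.1 (sv q q') := by
  have h1 := h.sub h'
  unfold sv
  rw [← h1]
  apply v3_ext <;> simp <;> ring

theorem sv_ne {p q q' : V3 × V3} (h : Mt p q) (h' : Mt p q') (hne : q.1 ≠ q'.1) :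
    sv q q' ≠ 0 := by
  intro hs
  have h1 := two_u h h'
  rw [hs] at h1
  simp at h1
  exact hne (sub_eq_zero.1 h1).symm

theorem Mt.snd_eq {p q q' : V3 × V3} (h : Mt p q) (h' : Mt p q') (he : q.1 = q'.1) : q = q' := by
  have h1 := h.sub h'
  rw [he] at h1
  simp at h1
  have h2 : (q'.2 - q.2) ⬝ᵥ (q'.2 - q.2) = 0 := by
    have h3 : (q'.2 - q.2) = crossProduct p.1 (q'.2 - q.2) := by
      rw [map_sub]; exact h1
    rw [cr] at h3
    have e0 := congrFun h3 0
    have e1 := congrFun h3 1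
    have e2 := congrFun h3 2
    simp only [Matrix.cons_val] at e0 e1 e2
    rw [dp]
    linear_combination (q'.2 - q.2) 0 * e0 + (q'.2 - q.2) 1 * e1 + (q'.2 - q.2) 2 * e2
  exact Prod.ext he (sub_eq_zero.1 (v3_self h2)).symm

/-- `4 u₁ × u₂` is a linear function of `s₁ × s₂` -/
theorem cross_u {w s1 s2 u1 u2 : V3} (h1 : (2:ℝ) • u1 = s1 - crossProduct w s1)
    (h2 : (2:ℝ) • u2 = s2 - crossProduct w s2) (h : crossProduct s1 s2 = 0) :
    crossProduct u1 u2 = 0 := by
  have k1 : u1 = (1/2:ℝ) • (s1 - crossProduct w s1) := by rw [← h1, smul_smul]; norm_num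
  have k2 : u2 = (1/2:ℝ) • (s2 - crossProduct w s2) := by rw [← h2, smul_smul]; norm_num
  have e0 := congrFun h 0
  have e1 := congrFun h 1
  have e2 := congrFun h 2
  rw [cr] at e0 e1 e2
  simp only [Matrix.cons_val, Pi.zero_apply] at e0 e1 e2
  have e0' : s1 1 * s2 2 = s1 2 * s2 1 := by linarith
  rw [k1, k2]
  simp only [cr]
  apply v3_eq_zero <;>
    simp only [Matrix.cons_val, Pi.sub_apply, Pi.smul_apply, smul_eq_mul]
  · linear_combination (1/4 : ℝ) * (e0 - (w 1 * e2 - w 2 * e1) + w 0 * (w 0 * e0 + w 1 * e1 + w 2 * e2))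
  · linear_combination (1/4 : ℝ) * (e1 - (w 2 * e0 - w 0 * e2) + w 1 * (w 0 * e0 + w 1 * e1 + w 2 * e2))
  · linear_combination (1/4 : ℝ) * (e2 - (w 0 * e1 - w 1 * e0) + w 2 * (w 0 * e0 + w 1 * e1 + w 2 * e2))

/-- two motions matching both `q`, `q'` differ by a multiple of `s` -/
theorem line_param {p p0 q q' : V3 × V3} (h : Mt p q) (h' : Mt p q') (h0 : Mt p0 q)
    (h0' : Mt p0 q') (hne : q.1 ≠ q'.1) :
    ∃ t : ℝ, p.1 = p0.1 + t • sv q q' := by
  have hs : sv q q' ≠ 0 := sv_ne h h' hne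
  have e1 := h.sub h'
  have e2 := h0.sub h0'
  have e3 : crossProduct (p.1 - p0.1) (sv q q') = 0 := by
    unfold sv
    rw [map_sub, LinearMap.sub_apply, ← e1, ← e2, sub_self]
  refine ⟨((p.1 - p0.1) ⬝ᵥ sv q q') / (sv q q' ⬝ᵥ sv q q'), ?_⟩
  rw [← par_of_cross e3 hs]
  simp

theorem mt_iff (p q : V3 × V3) : Mt p q ↔ p.2 = wq q p.1 := by
  unfold Mt wq
  constructor
  · intro h; rw [h]; simp
  · intro h; rw [h]; simp

theorem ext_of_mt {p p' q : V3 × V3} (h : Mt p q) (h' : Mt p' q) (he : p.1 = p'.1) : p = p' := by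
  rw [mt_iff] at h h'
  exact Prod.ext he (by rw [h, h', he])

theorem eval_hq (h : MvPolynomial (Fin 6) ℝ) (q : V3 × V3) (ω : V3) :
    eval ω (hq h q) = eval (pv (ω, wq q ω)) h := by
  unfold hq
  rw [W.eval_aeval]
  have h2 : (fun i => eval ω (Lq q i)) = pv (ω, wq q ω) := by
    funext i
    fin_cases i <;> simp [Lq, pv, wq, cross_apply]
  rw [h2]

theorem totalDegree_hq (h : MvPolynomial (Fin 6) ℝ) (q : V3 × V3) :
    (hq h q).totalDegree ≤ h.totalDegree := by
  have := W.totalDegree_aeval_le (Lq q) 1 ?_ h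
  · simpa [hq] using this
  · intro i
    have hX : ∀ (j : Fin 3) (r : ℝ), (X j * C r : MvPolynomial (Fin 3) ℝ).totalDegree ≤ 1 := by
      intro j r
      refine (totalDegree_mul _ _).trans ?_
      simp
    have hC : ∀ (r : ℝ) (j k : Fin 3) (x y : ℝ),
        (C r - (X j * C x - X k * C y) : MvPolynomial (Fin 3) ℝ).totalDegree ≤ 1 := by
      intro r j k x y
      refine (totalDegree_sub _ _).trans (max_le (by simp) ?_)
      exact (totalDegree_sub _ _).trans (max_le (hX _ _) (hX _ _))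
    fin_cases i
    · simp [Lq]
    · simp [Lq]
    · simp [Lq]
    · exact hC _ _ _ _ _
    · exact hC _ _ _ _ _
    · exact hC _ _ _ _ _

theorem eval_hq_mt (h : MvPolynomial (Fin 6) ℝ) {p q : V3 × V3} (hm : Mt p q) :
    eval p.1 (hq h q) = eval (pv p) h := by
  rw [eval_hq, ← (mt_iff p q).1 hm]

/-- gradient condition on a flat contained in `Z(h)` -/
theorem grad_flat (h : MvPolynomial (Fin 6) ℝ) {p q : V3 × V3} (hm : Mt p q) (hz : hq h q = 0) :
    let g := fun i => eval (pv p) (pderiv i h)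
    let m := q.1 + q.2
    g 0 = m 1 * g 5 - m 2 * g 4 ∧ g 1 = m 2 * g 3 - m 0 * g 5 ∧ g 2 = m 0 * g 4 - m 1 * g 3 := by
  intro g m
  have key : ∀ η : V3, ∑ i, (pv (η, - crossProduct η m)) i * g i = 0 := by
    intro η
    have h1 := W.hasDerivAt_eval h (pv p) (pv (η, - crossProduct η m))
    have h2 : (fun t : ℝ => eval (pv p + t • pv (η, - crossProduct η m)) h) = fun _ => 0 := by
      funext t
      have h3 : pv p + t • pv (η, - crossProduct η m) = pv (p.1 + t • η, wq q (p.1 + t • η)) := by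
        have h4 := (mt_iff p q).1 hm
        have c0 := congrFun h4 0
        have c1 := congrFun h4 1
        have c2 := congrFun h4 2
        simp only [wq, cr] at c0 c1 c2
        simp at c0 c1 c2
        funext i
        fin_cases i <;> simp [pv, wq, cross_apply, m]
        · rw [c0]; ring
        · rw [c1]; ring
        · rw [c2]; ring
      rw [h3, ← eval_hq, hz, map_zero]
    rw [h2] at h1
    exact h1.unique (hasDerivAt_const (0:ℝ) (0:ℝ))
  have k0 := key ![1, 0, 0]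
  have k1 := key ![0, 1, 0]
  have k2 := key ![0, 0, 1]
  simp [Fin.sum_univ_six, pv, cross_apply] at k0 k1 k2
  refine ⟨by linarith, by linarith, by linarith⟩

/-- three flats through `p` inside `Z(h)` with `∇h(p) ≠ 0` have collinear base points -/
theorem collinear_of_flats (h : MvPolynomial (Fin 6) ℝ) {p : V3 × V3}
    (hg : ∃ i, eval (pv p) (pderiv i h) ≠ 0) {q1 q2 q3 : V3 × V3}
    (h1 : Mt p q1) (h2 : Mt p q2) (h3 : Mt p q3)
    (z1 : hq h q1 = 0) (z2 : hq h q2 = 0) (z3 : hq h q3 = 0) :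
    crossProduct (q2.1 - q1.1) (q3.1 - q1.1) = 0 := by
  obtain ⟨a0, a1, a2⟩ := grad_flat h h1 z1
  obtain ⟨b0, b1, b2⟩ := grad_flat h h2 z2
  obtain ⟨c0, c1, c2⟩ := grad_flat h h3 z3
  set g := fun i => eval (pv p) (pderiv i h) with hgdef
  let γ : V3 := ![g 3, g 4, g 5]
  simp only [Pi.add_apply] at a0 a1 a2 b0 b1 b2 c0 c1 c2
  have s1 : crossProduct (sv q1 q2) γ = 0 := by
    rw [cr]
    apply v3_eq_zero <;> simp [sv, γ] <;> linarith
  have s2 : crossProduct (sv q1 q3) γ = 0 := by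
    rw [cr]
    apply v3_eq_zero <;> simp [sv, γ] <;> linarith
  have hγ : γ ≠ 0 := by
    intro hc
    have e3 : g 3 = 0 := by simpa [γ] using congrFun hc 0
    have e4 : g 4 = 0 := by simpa [γ] using congrFun hc 1
    have e5 : g 5 = 0 := by simpa [γ] using congrFun hc 2
    obtain ⟨i, hi⟩ := hg
    apply hi
    change g i = 0
    have e0 : g 0 = 0 := by rw [a0, e4, e5]; ring
    have e1 : g 1 = 0 := by rw [a1, e3, e5]; ring
    have e2 : g 2 = 0 := by rw [a2, e3, e4]; ring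
    fin_cases i
    · exact e0
    · exact e1
    · exact e2
    · exact e3
    · exact e4
    · exact e5
  refine cross_u (two_u h1 h2) (two_u h1 h3) ?_
  rw [par_of_cross s1 hγ, par_of_cross s2 hγ]
  simp

end Vale.Agent.P054.PL
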