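import Vale.Agent.P054.Y.PL.Geo

/-! Theorem PL: the wall count. -/

namespace Vale.Agent.P054.PL

open MvPolynomial Matrix

theorem mem_Ms {S : Finset (V3 × V3)} {p q : V3 × V3} : q ∈ Ms S p ↔ q ∈ S ∧ Mt p q := by
  classical
  simp [Ms]

/-- the normal of the plane of directions `s` -/
theorem nrm_dot {m w s u : V3} (h : (2:ℝ) • u = s - crossProduct w s) (hm : m ⬝ᵥ u = 0) :
    (m + crossProduct w m) ⬝ᵥ s = 0 := by
  have e0 := congrFun h 0
  have e1 := congrFun h 1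
  have e2 := congrFun h 2
  rw [cr] at e0 e1 e2
  simp only [Matrix.cons_val, Pi.sub_apply, Pi.smul_apply, smul_eq_mul] at e0 e1 e2
  rw [dp] at hm
  rw [cr, dp]
  simp only [Matrix.cons_val, Pi.add_apply]
  linear_combination (2:ℝ) * hm - m 0 * e0 - m 1 * e1 - m 2 * e2

theorem nrm_ne {m : V3} (w : V3) (hm : m ≠ 0) : m + crossProduct w m ≠ 0 := by
  intro h
  apply hm
  apply v3_self
  have e0 := congrFun h 0
  have e1 := congrFun h 1
  have e2 := congrFun h 2
  rw [cr] at e0 e1 e2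
  simp only [Matrix.cons_val, Pi.add_apply, Pi.zero_apply] at e0 e1 e2
  rw [dp]
  linear_combination m 0 * e0 + m 1 * e1 + m 2 * e2

theorem TR_of {p q q' : V3 × V3} (h : Mt p q) (h' : Mt p q') {n : V3} {δ : ℝ}
    (hs : n ⬝ᵥ sv q q' = 0) (hn : n ⬝ᵥ p.1 = δ) : TR n δ q q' := by
  refine ⟨hs, ?_⟩
  rw [h.sub h']
  change crossProduct n (crossProduct p.1 (sv q q')) = (-δ) • sv q q'
  rw [← hn]
  rw [dp] at hs ⊢
  simp only [cr]
  apply v3_ext <;> simp only [Matrix.cons_val, Pi.smul_apply, smul_eq_mul]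
  · linear_combination p.1 0 * hs
  · linear_combination p.1 1 * hs
  · linear_combination p.1 2 * hs

/-- (a) transversal lines -/
theorem caseA (hLi : LineStmt) {D : ℕ} {h : MvPolynomial (Fin 6) ℝ} (hD : h.totalDegree ≤ D)
    (S G : Finset (V3 × V3)) (hG : ∀ p ∈ G, eval (pv p) h = 0)
    (hA : ∀ p ∈ G, ∃ q ∈ Ms S p, ∃ q' ∈ Ms S p, q.1 ≠ q'.1 ∧
      ∃ t : ℝ, eval (p.1 + t • sv q q') (hq h q) ≠ 0) :
    G.card ≤ D * S.card ^ 2 := by
  classical
  choose! q hqS q' hq'S hne ht using hA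
  have h1 : G.card ≤ D * (G.image (fun p => (q p, q' p))).card := by
    refine Finset.card_le_mul_card_image G D ?_
    intro a ha
    obtain ⟨p0, hp0, rfl⟩ := Finset.mem_image.1 ha
    set F := G.filter (fun p => (q p, q' p) = (q p0, q' p0)) with hF
    have hFm : ∀ p ∈ F, p ∈ G ∧ Mt p (q p0) ∧ Mt p (q' p0) := by
      intro p hp
      rw [hF, Finset.mem_filter] at hp
      obtain ⟨hpG, he⟩ := hp
      have e1 : q p = q p0 := congrArg Prod.fst he
      have e2 : q' p = q' p0 := congrArg Prod.snd he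
      refine ⟨hpG, ?_, ?_⟩
      · rw [← e1]; exact (mem_Ms.1 (hqS p hpG)).2
      · rw [← e2]; exact (mem_Ms.1 (hq'S p hpG)).2
    have hex : ∀ p ∈ F, ∃ t : ℝ, p.1 = p0.1 + t • sv (q p0) (q' p0) := fun p hp =>
      line_param (hFm p hp).2.1 (hFm p hp).2.2 (mem_Ms.1 (hqS p0 hp0)).2
        (mem_Ms.1 (hq'S p0 hp0)).2 (hne p0 hp0)
    choose! t htp using hex
    have hinj : Set.InjOn t F := by
      intro p hp p' hp' he
      refine ext_of_mt (hFm p hp).2.1 (hFm p' hp').2.1 ?_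
      rw [htp p hp, htp p' hp', he]
    rw [← Finset.card_image_of_injOn hinj]
    refine hLi D (hq h (q p0)) ((totalDegree_hq h _).trans hD) p0.1 (sv (q p0) (q' p0))
      (ht p0 hp0) _ ?_
    intro r hr
    obtain ⟨p, hp, rfl⟩ := Finset.mem_image.1 hr
    rw [← htp p hp, eval_hq_mt h (hFm p hp).2.1]
    exact hG p (hFm p hp).1
  have h2 : (G.image (fun p => (q p, q' p))).card ≤ S.card ^ 2 := by
    have h3 : G.image (fun p => (q p, q' p)) ⊆ S ×ˢ S := by
      intro a ha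
      obtain ⟨p, hp, rfl⟩ := Finset.mem_image.1 ha
      exact Finset.mem_product.2 ⟨(mem_Ms.1 (hqS p hp)).1, (mem_Ms.1 (hq'S p hp)).1⟩
    refine (Finset.card_le_card h3).trans ?_
    rw [Finset.card_product, sq]
  exact h1.trans (Nat.mul_le_mul_left _ h2)

/-- (b) one motion all of whose edge lines are in `Z(h)` -/
theorem caseB_point (hPl : PlaneStmt) (hDi : DirStmt) {D : ℕ} {h : MvPolynomial (Fin 6) ℝ}
    (hD : h.totalDegree ≤ D) (S : Finset (V3 × V3)) (p : V3 × V3)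
    (hp : Good S (D ^ 2 + 2) p) (hg : ∃ i, eval (pv p) (pderiv i h) ≠ 0)
    (hB : ∀ q ∈ Ms S p, ∀ q' ∈ Ms S p, q.1 ≠ q'.1 →
      ∀ t : ℝ, eval (p.1 + t • sv q q') (hq h q) = 0) :
    ∃ q ∈ Ms S p, hq h q ≠ 0 ∧ ∃ n : V3, n ≠ 0 ∧ (∀ q' ∈ Ms S p, n ⬝ᵥ sv q q' = 0) ∧
      ∀ y : V3, n ⬝ᵥ y = n ⬝ᵥ p.1 → eval y (hq h q) = 0 := by
  classical
  have hMt : ∀ q ∈ Ms S p, Mt p q := fun q hq => (mem_Ms.1 hq).2
  have hinj : Set.InjOn (Prod.fst : V3 × V3 → V3) (Ms S p) := fun q hq q' hq' he =>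
    (hMt q hq).snd_eq (hMt q' hq') he
  obtain ⟨a, haA, haB, A', hA'A, haA', hcard, hdir⟩ := hDi D ((Ms S p).image Prod.fst)
    (((Ms S p).filter (fun q => hq h q = 0)).image Prod.fst)
    (Finset.image_subset_image (Finset.filter_subset _ _))
    (by
      intro x b hb
      refine (hp.rho x b hb).trans ?_
      rw [Finset.filter_image, Finset.card_image_of_injOn
        (hinj.mono (fun q hq => (Finset.mem_filter.1 hq).1))])
    (by
      intro x hx y hy z hz
      obtain ⟨q1, hq1, rfl⟩ := Finset.mem_image.1 hx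
      obtain ⟨q2, hq2, rfl⟩ := Finset.mem_image.1 hy
      obtain ⟨q3, hq3, rfl⟩ := Finset.mem_image.1 hz
      rw [Finset.mem_filter] at hq1 hq2 hq3
      exact collinear_of_flats h hg (hMt _ hq1.1) (hMt _ hq2.1) (hMt _ hq3.1) hq1.2 hq2.2 hq3.2)
  obtain ⟨q, hqM, rfl⟩ := Finset.mem_image.1 haA
  have hqne : hq h q ≠ 0 := fun hc =>
    haB (Finset.mem_image.2 ⟨q, Finset.mem_filter.2 ⟨hqM, hc⟩, rfl⟩)
  obtain ⟨m, hm, hmp⟩ := hp.plane
  refine ⟨q, hqM, hqne, m + crossProduct p.1 m, nrm_ne _ hm, ?_, ?_⟩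
  · intro q' hq'
    exact nrm_dot (two_u (hMt q hqM) (hMt q' hq')) (hmp q hqM q' hq')
  · set A'' := (Ms S p).filter (fun q' => q'.1 ∈ A') with hA''
    have hc1 : A''.card = A'.card := by
      have : A''.image Prod.fst = A' := by
        ext x
        rw [Finset.mem_image]
        constructor
        · rintro ⟨q', hq', rfl⟩
          exact (Finset.mem_filter.1 hq').2
        · intro hx
          obtain ⟨q', hq', rfl⟩ := Finset.mem_image.1 (hA'A hx)
          exact ⟨q', Finset.mem_filter.2 ⟨hq', hx⟩, rfl⟩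
      rw [← this, Finset.card_image_of_injOn (hinj.mono (fun q hq => (Finset.mem_filter.1 hq).1))]
    have hcross : ∀ q1 ∈ A'', ∀ q2 ∈ A'', q1 ≠ q2 →
        crossProduct (sv q q1) (sv q q2) ≠ 0 := by
      intro q1 h1 q2 h2 hne hc
      rw [hA'', Finset.mem_filter] at h1 h2
      have h12 : q1.1 ≠ q2.1 := fun he => hne (hinj h1.1 h2.1 he)
      exact hdir q1.1 h1.2 q2.1 h2.2 h12
        (cross_u (two_u (hMt q hqM) (hMt q1 h1.1)) (two_u (hMt q hqM) (hMt q2 h2.1)) hc)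
    have hinj2 : Set.InjOn (sv q) (A'' : Set (V3 × V3)) := by
      intro q1 h1 q2 h2 he
      by_contra hne
      apply hcross q1 h1 q2 h2 hne
      rw [he]
      exact cross_self _
    refine hPl D (hq h q) ((totalDegree_hq h _).trans hD) p.1 _ (nrm_ne p.1 hm) (A''.image (sv q))
      ?_ ?_ ?_
    · rw [Finset.card_image_of_injOn hinj2, hc1]; exact hcard
    · intro s hs
      obtain ⟨q', hq', rfl⟩ := Finset.mem_image.1 hs
      rw [hA'', Finset.mem_filter] at hq'
      have hne : q.1 ≠ q'.1 := fun he => haA' (he ▸ hq'.2)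
      exact ⟨sv_ne (hMt q hqM) (hMt q' hq'.1) hne,
        nrm_dot (two_u (hMt q hqM) (hMt q' hq'.1)) (hmp q hqM q' hq'.1),
        hB q hqM q' hq'.1 hne⟩
    · intro s hs s' hs' hne
      obtain ⟨q1, hq1, rfl⟩ := Finset.mem_image.1 hs
      obtain ⟨q2, hq2, rfl⟩ := Finset.mem_image.1 hs'
      exact hcross q1 hq1 q2 hq2 (fun he => hne (by rw [he]))

/-- (b) the count -/
theorem caseB (hPs : PlanesStmt) {D : ℕ} {h : MvPolynomial (Fin 6) ℝ}
    (hD : h.totalDegree ≤ D) (S G : Finset (V3 × V3)) (B : ℕ) (hF : Fib S G B)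
    (hG : ∀ p ∈ G, ∃ q ∈ Ms S p, hq h q ≠ 0 ∧ ∃ n : V3, n ≠ 0 ∧
      (∀ q' ∈ Ms S p, n ⬝ᵥ sv q q' = 0) ∧
      ∀ y : V3, n ⬝ᵥ y = n ⬝ᵥ p.1 → eval y (hq h q) = 0) :
    G.card ≤ B * (D * S.card) := by
  classical
  choose! q hqM hqne n hn hns hny using hG
  have h1 : G.card ≤ (B * D) * (G.image q).card := by
    refine Finset.card_le_mul_card_image G (B * D) ?_
    intro q0 hq0
    set G0 := G.filter (fun p => q p = q0) with hG0
    have hG0m : ∀ p ∈ G0, p ∈ G ∧ q p = q0 := fun p hp => Finset.mem_filter.1 hp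
    let Φ : V3 × V3 → Set V3 := fun p => {y | n p ⬝ᵥ y = n p ⬝ᵥ p.1}
    have h2 : G0.card ≤ B * (G0.image Φ).card := by
      refine Finset.card_le_mul_card_image G0 B ?_
      intro P hP
      obtain ⟨p0, hp0, rfl⟩ := Finset.mem_image.1 hP
      have hp0' := hG0m p0 hp0
      have hq0S : q0 ∈ S := by
        rw [← hp0'.2]; exact (mem_Ms.1 (hqM p0 hp0'.1)).1
      refine (Finset.card_le_card ?_).trans (hF q0 hq0S (n p0) (hn p0 hp0'.1) (n p0 ⬝ᵥ p0.1))
      intro p hp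
      rw [Finset.mem_filter] at hp
      obtain ⟨hpG0, hΦ⟩ := hp
      have hp' := hG0m p hpG0
      have hqm : q0 ∈ Ms S p := by rw [← hp'.2]; exact hqM p hp'.1
      refine Finset.mem_filter.2 ⟨hp'.1, hqm, ?_⟩
      intro q' hq'
      have e1 : n p0 ⬝ᵥ p.1 = n p0 ⬝ᵥ p0.1 := by
        have : p.1 ∈ Φ p := rfl
        rw [hΦ] at this
        exact this
      have e2 : n p0 ⬝ᵥ (p.1 + sv q0 q') = n p0 ⬝ᵥ p0.1 := by
        have : p.1 + sv q0 q' ∈ Φ p := by
          change n p ⬝ᵥ (p.1 + sv q0 q') = n p ⬝ᵥ p.1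
          rw [dotProduct_add]
          have := hns p hp'.1 q' hq'
          rw [hp'.2] at this
          rw [this, add_zero]
        rw [hΦ] at this
        exact this
      have e3 : n p0 ⬝ᵥ sv q0 q' = 0 := by
        rw [dotProduct_add, e1] at e2
        linarith
      exact TR_of (mem_Ms.1 hqm).2 (mem_Ms.1 hq').2 e3 e1
    have h3 : (G0.image Φ).card ≤ D := by
      rcases Finset.eq_empty_or_nonempty G0 with he | ⟨p1, hp1⟩
      · rw [he]; simp
      have hrep : ∀ P ∈ G0.image Φ, ∃ p ∈ G0, Φ p = P := fun P hP => Finset.mem_image.1 hP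
      choose! r hr hrP using hrep
      have hp1' := hG0m p1 hp1
      have hne : hq h q0 ≠ 0 := by rw [← hp1'.2]; exact hqne p1 hp1'.1
      refine hPs D (hq h q0) hne ((totalDegree_hq h _).trans hD) (Set V3) (G0.image Φ)
        (fun P => n (r P)) (fun P => n (r P) ⬝ᵥ (r P).1) ?_ ?_ ?_
      · intro P hP
        exact hn _ (hG0m _ (hr P hP)).1
      · intro P hP y hy
        have h4 := hny (r P) (hG0m _ (hr P hP)).1 y hy
        rwa [(hG0m _ (hr P hP)).2] at h4
      · intro P hP P' hP' hne hall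
        apply hne
        rw [← hrP P hP, ← hrP P' hP']
        ext y
        exact hall y
    calc G0.card ≤ B * (G0.image Φ).card := h2
      _ ≤ B * D := Nat.mul_le_mul_left _ h3
  have h5 : (G.image q).card ≤ S.card := by
    refine Finset.card_le_card ?_
    intro a ha
    obtain ⟨p, hp, rfl⟩ := Finset.mem_image.1 ha
    exact (mem_Ms.1 (hqM p hp)).1
  calc G.card ≤ (B * D) * (G.image q).card := h1
    _ ≤ (B * D) * S.card := Nat.mul_le_mul_left _ h5
    _ = B * (D * S.card) := by ring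

theorem Fib.mono {S G G' : Finset (V3 × V3)} {B : ℕ} (h : Fib S G B) (hs : G' ⊆ G) :
    Fib S G' B := by
  classical
  intro q0 hq0 n hn δ
  exact (Finset.card_le_card (Finset.filter_subset_filter _ hs)).trans (h q0 hq0 n hn δ)

theorem wallStmt (hPl : PlaneStmt) (hPs : PlanesStmt) (hLi : LineStmt) (hDi : DirStmt) :
    WallStmt := by
  classical
  intro D h hD S G B hGood hF hwall
  let Q : V3 × V3 → Prop := fun p => ∃ q ∈ Ms S p, ∃ q' ∈ Ms S p, q.1 ≠ q'.1 ∧
      ∃ t : ℝ, eval (p.1 + t • sv q q') (hq h q) ≠ 0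
  have h1 : (G.filter Q).card ≤ D * S.card ^ 2 :=
    caseA hLi hD S _ (fun p hp => (hwall p (Finset.mem_filter.1 hp).1).1)
      (fun p hp => (Finset.mem_filter.1 hp).2)
  have h2 : (G.filter (fun p => ¬ Q p)).card ≤ B * (D * S.card) := by
    refine caseB hPs hD S _ B (hF.mono (Finset.filter_subset _ _)) ?_
    intro p hp
    rw [Finset.mem_filter] at hp
    refine caseB_point hPl hDi hD S p (hGood p hp.1) (hwall p hp.1).2 ?_
    intro q hqM q' hq'M hne t
    by_contra hc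
    exact hp.2 ⟨q, hqM, q', hq'M, hne, t, hc⟩
  rw [← Finset.card_filter_add_card_filter_not (s := G) Q]
  exact Nat.add_le_add h1 h2

end Vale.Agent.P054.PL
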